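import Vale.Agent.P363.R2.h518.G1
import Vale.Agent.P363.H382.Forms

/-!
P370, block C2 (c): Hardy and form bounds for the perturbation `V = repulsion - attraction by light
nuclei` on the `N`-electron space.
-/

namespace Vale.Agent.P370.H546

open MeasureTheory Filter Topology
open Vale.Agent.P363.Stmt Vale.Agent.P363.R.Sob Vale.Agent.P363.H382 Vale.Agent.P363.R.Top
open Vale.Agent.P363.H518 (pI pI_apply pI_dir pD pD_apply pD_dir norm_LC_sq hardy_HS)
open scoped ENNReal ComplexConjugate ContDiff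

noncomputable section

variable {N : ℕ} {κ : Type*}

/-- attraction of the electrons by the points `y k` with the weights `c k` -/
def light (L : Finset κ) (c : κ → ℝ) (y : κ → R3) (x : Conf N) : ℝ :=
  ∑ i, ∑ k ∈ L, c k / ‖x i - y k‖

/-- the perturbation: repulsion of the electrons minus the attraction by the light nuclei -/
def pert (L : Finset κ) (c : κ → ℝ) (y : κ → R3) (x : Conf N) : ℝ := rep x - light L c y x

/-- kinetic terms of the electron `i` in the component `s` -/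
def kis (u : Amb N) (s : Spn N) (i : Fin N) : ℝ := ∑ k, ‖u (s, some (i, k))‖ ^ 2

theorem kis_nonneg (u : Amb N) (s : Spn N) (i : Fin N) : 0 ≤ kis u s i :=
  Finset.sum_nonneg fun _ _ => sq_nonneg _

theorem kin_eq (u : Amb N) : kin u = ∑ s, ∑ i, kis u s i := rfl

theorem hardy_one (u : HS N) (s : Spn N) (i : Fin N) (a : R3) :
    Integrable (fun x : Conf N => ‖u.1 (s, none) x‖ ^ 2 / ‖x i - a‖ ^ 2) ∧
      ∫ x : Conf N, ‖u.1 (s, none) x‖ ^ 2 / ‖x i - a‖ ^ 2 ≤ 4 * kis u.1 s i := by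
  have h := hardy (μ := (volume : Measure (Conf N))) (pI i) a (fun k => dir i k) (pI_dir i)
    (Lp.memLp (u.1 (s, none))) (fun k => Lp.memLp (u.1 (s, some (i, k)))) (fun k => u.2 s i k)
  simp only [pI_apply] at h
  refine ⟨h.1, h.2.trans (le_of_eq ?_)⟩
  unfold kis
  congr 1
  exact Finset.sum_congr rfl fun k _ => (norm_LC_sq _).symm

theorem coul_one (u : HS N) (s : Spn N) (i : Fin N) (a : R3) :
    Integrable (fun x : Conf N => ‖u.1 (s, none) x‖ ^ 2 / ‖x i - a‖) ∧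
      ∀ η : ℝ, 0 < η → ∫ x : Conf N, ‖u.1 (s, none) x‖ ^ 2 / ‖x i - a‖ ≤
        η * kis u.1 s i + (1 / η) * ‖u.1 (s, none)‖ ^ 2 := by
  have h := coulomb_le (μ := (volume : Measure (Conf N))) (pI i) a (fun k => dir i k) (pI_dir i)
    (Lp.memLp (u.1 (s, none))) (fun k => Lp.memLp (u.1 (s, some (i, k)))) (fun k => u.2 s i k)
  simp only [pI_apply] at h
  refine ⟨h.1, fun η hη => (h.2 η hη).trans (le_of_eq ?_)⟩
  rw [norm_LC_sq]
  unfold kis
  congr 2
  exact Finset.sum_congr rfl fun k _ => (norm_LC_sq _).symm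

theorem hardy_two (u : HS N) (s : Spn N) {i j : Fin N} (hij : i < j) :
    Integrable (fun x : Conf N => ‖u.1 (s, none) x‖ ^ 2 / ‖x i - x j‖ ^ 2) ∧
      ∫ x : Conf N, ‖u.1 (s, none) x‖ ^ 2 / ‖x i - x j‖ ^ 2 ≤ 4 * kis u.1 s i := by
  have h := hardy_HS (pD i j) i (pD_dir hij) s u
  simp only [pD_apply] at h
  exact h

/-! ### squares -/

theorem rep_sq_le (x : Conf N) :
    rep x ^ 2 ≤ (N : ℝ) ^ 2 * ∑ i, ∑ j ∈ Finset.Ioi i, 1 / ‖x i - x j‖ ^ 2 := by
  unfold rep
  have h1 : (∑ i : Fin N, ∑ j ∈ Finset.Ioi i, 1 / ‖x i - x j‖) ^ 2 ≤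
      (Finset.univ : Finset (Fin N)).card *
        ∑ i : Fin N, (∑ j ∈ Finset.Ioi i, 1 / ‖x i - x j‖) ^ 2 := sq_sum_le_card_mul_sum_sq
  have h2 : ∀ i : Fin N, (∑ j ∈ Finset.Ioi i, 1 / ‖x i - x j‖) ^ 2 ≤
      N * ∑ j ∈ Finset.Ioi i, 1 / ‖x i - x j‖ ^ 2 := by
    intro i
    have h3 : (∑ j ∈ Finset.Ioi i, 1 / ‖x i - x j‖) ^ 2 ≤
      (Finset.Ioi i).card * ∑ j ∈ Finset.Ioi i, (1 / ‖x i - x j‖) ^ 2 := sq_sum_le_card_mul_sum_sq
    have h4 : ((Finset.Ioi i).card : ℝ) ≤ N := by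
      have : (Finset.Ioi i).card ≤ (Finset.univ : Finset (Fin N)).card :=
        Finset.card_le_card (Finset.subset_univ _)
      rw [Finset.card_univ, Fintype.card_fin] at this
      exact_mod_cast this
    have h5 : ∑ j ∈ Finset.Ioi i, (1 / ‖x i - x j‖) ^ 2 =
        ∑ j ∈ Finset.Ioi i, 1 / ‖x i - x j‖ ^ 2 :=
      Finset.sum_congr rfl fun j _ => by rw [div_pow, one_pow]
    rw [h5] at h3
    refine h3.trans (mul_le_mul_of_nonneg_right h4 ?_)
    exact Finset.sum_nonneg fun j _ => by positivity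
  refine h1.trans ?_
  rw [Finset.card_univ, Fintype.card_fin, pow_two, mul_assoc]
  refine mul_le_mul_of_nonneg_left ?_ (Nat.cast_nonneg N)
  rw [Finset.mul_sum]
  exact Finset.sum_le_sum fun i _ => h2 i

theorem light_sq_le (L : Finset κ) {c : κ → ℝ} (hc : ∀ k ∈ L, 0 ≤ c k) (y : κ → R3)
    (x : Conf N) :
    light L c y x ^ 2 ≤ N * (∑ k ∈ L, c k) * ∑ i, ∑ k ∈ L, c k / ‖x i - y k‖ ^ 2 := by
  unfold light
  have h1 : (∑ i : Fin N, ∑ k ∈ L, c k / ‖x i - y k‖) ^ 2 ≤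
      (Finset.univ : Finset (Fin N)).card *
        ∑ i : Fin N, (∑ k ∈ L, c k / ‖x i - y k‖) ^ 2 := sq_sum_le_card_mul_sum_sq
  have h2 : ∀ i : Fin N, (∑ k ∈ L, c k / ‖x i - y k‖) ^ 2 ≤
      (∑ k ∈ L, c k) * ∑ k ∈ L, c k / ‖x i - y k‖ ^ 2 := by
    intro i
    apply Finset.sum_sq_le_sum_mul_sum_of_sq_le_mul
    · exact hc
    · intro k hk
      exact div_nonneg (hc k hk) (by positivity)
    · intro k _
      rw [div_pow]
      exact le_of_eq (by ring)
  refine h1.trans ?_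
  rw [Finset.card_univ, Fintype.card_fin, mul_assoc]
  refine mul_le_mul_of_nonneg_left ?_ (Nat.cast_nonneg N)
  rw [Finset.mul_sum]
  exact Finset.sum_le_sum fun i _ => h2 i

theorem measurable_rep : Measurable (rep : Conf N → ℝ) := by
  unfold rep
  refine Finset.measurable_sum _ fun i _ => Finset.measurable_sum _ fun j _ => ?_
  exact measurable_const.div ((measurable_pi_apply i).sub (measurable_pi_apply j)).norm

theorem measurable_light (L : Finset κ) (c : κ → ℝ) (y : κ → R3) :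
    Measurable (light L c y : Conf N → ℝ) := by
  unfold light
  refine Finset.measurable_sum _ fun i _ => Finset.measurable_sum _ fun k _ => ?_
  exact measurable_const.div ((measurable_pi_apply i).sub measurable_const).norm

theorem measurable_pert (L : Finset κ) (c : κ → ℝ) (y : κ → R3) :
    Measurable (pert L c y : Conf N → ℝ) := measurable_rep.sub (measurable_light L c y)

/-- `‖V u‖² ≤ M2 (kin u)` -/
def M2 (N : ℕ) (ct : ℝ) : ℝ := 4 * N * ((N : ℝ) + ct) ^ 2

theorem M2_nonneg (N : ℕ) (ct : ℝ) : 0 ≤ M2 N ct := by unfold M2; positivity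

theorem sq_sub_le {a b p q A B : ℝ} (hp : 0 ≤ p) (hq : 0 ≤ q) (hA : 0 ≤ A) (hB : 0 ≤ B)
    (ha : a ^ 2 ≤ p * A) (hb : b ^ 2 ≤ q * B) : (a - b) ^ 2 ≤ (p + q) * (A + B) := by
  have h1 : (a * b) ^ 2 ≤ ((p * B + q * A) / 2) ^ 2 := by
    have h2 : (a * b) ^ 2 ≤ (p * A) * (q * B) := by
      rw [mul_pow]
      exact mul_le_mul ha hb (sq_nonneg _) (mul_nonneg hp hA)
    nlinarith [sq_nonneg (p * B - q * A)]
  have h3 : |a * b| ≤ (p * B + q * A) / 2 := abs_le_of_sq_le_sq h1 (by positivity)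
  have h4 := (abs_le.1 h3).1
  nlinarith

theorem pert_sq_le (L : Finset κ) {c : κ → ℝ} (hc : ∀ k ∈ L, 0 ≤ c k) (y : κ → R3) (x : Conf N) :
    pert L c y x ^ 2 ≤ ((N : ℝ) ^ 2 + N * (∑ k ∈ L, c k)) *
      ((∑ i, ∑ j ∈ Finset.Ioi i, 1 / ‖x i - x j‖ ^ 2) +
        ∑ i, ∑ k ∈ L, c k / ‖x i - y k‖ ^ 2) := by
  refine sq_sub_le (by positivity) ?_ ?_ ?_ (rep_sq_le x) (light_sq_le L hc y x)
  · exact mul_nonneg (Nat.cast_nonneg N) (Finset.sum_nonneg hc)
  · exact Finset.sum_nonneg fun i _ => Finset.sum_nonneg fun j _ => by positivity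
  · exact Finset.sum_nonneg fun i _ => Finset.sum_nonneg fun k hk =>
      div_nonneg (hc k hk) (by positivity)

theorem pert_int (L : Finset κ) {c : κ → ℝ} (hc : ∀ k ∈ L, 0 ≤ c k) (y : κ → R3) (u : HS N)
    (s : Spn N) : Integrable (fun x : Conf N => pert L c y x ^ 2 * ‖u.1 (s, none) x‖ ^ 2) ∧
      ∫ x : Conf N, pert L c y x ^ 2 * ‖u.1 (s, none) x‖ ^ 2 ≤
        M2 N (∑ k ∈ L, c k) * ∑ i, kis u.1 s i := by
  set ct : ℝ := ∑ k ∈ L, c k with hct
  have hct0 : 0 ≤ ct := Finset.sum_nonneg hc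
  -- the majorant
  set A : Conf N → ℝ := fun x => ∑ i, ∑ j ∈ Finset.Ioi i, ‖u.1 (s, none) x‖ ^ 2 / ‖x i - x j‖ ^ 2
    with hA
  set B : Conf N → ℝ := fun x => ∑ i, ∑ k ∈ L, c k * (‖u.1 (s, none) x‖ ^ 2 / ‖x i - y k‖ ^ 2)
    with hB
  have hAi : Integrable A := by
    refine integrable_finsetSum _ fun i _ => integrable_finsetSum _ fun j hj => ?_
    exact (hardy_two u s (Finset.mem_Ioi.1 hj)).1
  have hBi : Integrable B := by
    refine integrable_finsetSum _ fun i _ => integrable_finsetSum _ fun k _ => ?_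
    exact (hardy_one u s i (y k)).1.const_mul _
  have hAle : ∫ x, A x ≤ 4 * N * ∑ i, kis u.1 s i := by
    rw [hA, integral_finsetSum _ fun i _ => integrable_finsetSum _ fun j hj =>
      (hardy_two u s (Finset.mem_Ioi.1 hj)).1]
    rw [Finset.mul_sum]
    refine Finset.sum_le_sum fun i _ => ?_
    rw [integral_finsetSum _ fun j hj => (hardy_two u s (Finset.mem_Ioi.1 hj)).1]
    have h1 : ∑ j ∈ Finset.Ioi i, ∫ x : Conf N, ‖u.1 (s, none) x‖ ^ 2 / ‖x i - x j‖ ^ 2 ≤
        ∑ j ∈ Finset.Ioi i, 4 * kis u.1 s i :=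
      Finset.sum_le_sum fun j hj => (hardy_two u s (Finset.mem_Ioi.1 hj)).2
    refine h1.trans ?_
    rw [Finset.sum_const, nsmul_eq_mul]
    have h4 : ((Finset.Ioi i).card : ℝ) ≤ N := by
      have : (Finset.Ioi i).card ≤ (Finset.univ : Finset (Fin N)).card :=
        Finset.card_le_card (Finset.subset_univ _)
      rw [Finset.card_univ, Fintype.card_fin] at this
      exact_mod_cast this
    have h5 := kis_nonneg u.1 s i
    nlinarith
  have hBle : ∫ x, B x ≤ 4 * ct * ∑ i, kis u.1 s i := by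
    rw [hB, integral_finsetSum _ fun i _ => integrable_finsetSum _ fun k _ =>
      (hardy_one u s i (y k)).1.const_mul _]
    rw [Finset.mul_sum]
    refine Finset.sum_le_sum fun i _ => ?_
    rw [integral_finsetSum _ fun k _ => (hardy_one u s i (y k)).1.const_mul _]
    have h1 : ∑ k ∈ L, ∫ x : Conf N, c k * (‖u.1 (s, none) x‖ ^ 2 / ‖x i - y k‖ ^ 2) ≤
        ∑ k ∈ L, c k * (4 * kis u.1 s i) := by
      refine Finset.sum_le_sum fun k hk => ?_
      rw [integral_const_mul]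
      exact mul_le_mul_of_nonneg_left (hardy_one u s i (y k)).2 (hc k hk)
    refine h1.trans (le_of_eq ?_)
    rw [← Finset.sum_mul]; ring
  have hpw : ∀ x, pert L c y x ^ 2 * ‖u.1 (s, none) x‖ ^ 2 ≤
      ((N : ℝ) ^ 2 + N * ct) * (A x + B x) := by
    intro x
    have h1 := mul_le_mul_of_nonneg_right (pert_sq_le L hc y x) (sq_nonneg ‖u.1 (s, none) x‖)
    refine h1.trans (le_of_eq ?_)
    have e1 : (∑ i, ∑ j ∈ Finset.Ioi i, 1 / ‖x i - x j‖ ^ 2) * ‖u.1 (s, none) x‖ ^ 2 = A x := by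
      rw [Finset.sum_mul]
      refine Finset.sum_congr rfl fun i _ => ?_
      rw [Finset.sum_mul]
      exact Finset.sum_congr rfl fun j _ => by ring
    have e2 : (∑ i, ∑ k ∈ L, c k / ‖x i - y k‖ ^ 2) * ‖u.1 (s, none) x‖ ^ 2 = B x := by
      rw [Finset.sum_mul]
      refine Finset.sum_congr rfl fun i _ => ?_
      rw [Finset.sum_mul]
      exact Finset.sum_congr rfl fun j _ => by ring
    rw [← e1, ← e2, ← hct]
    ring
  have hmaj : Integrable (fun x => ((N : ℝ) ^ 2 + N * ct) * (A x + B x)) :=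
    (hAi.add hBi).const_mul _
  have hint : Integrable (fun x : Conf N => pert L c y x ^ 2 * ‖u.1 (s, none) x‖ ^ 2) := by
    refine hmaj.mono' ?_ (Eventually.of_forall fun x => ?_)
    · exact ((measurable_pert L c y).pow_const 2).aestronglyMeasurable.mul
        ((Lp.aestronglyMeasurable _).norm.pow 2)
    · rw [Real.norm_eq_abs, abs_of_nonneg (by positivity)]
      exact hpw x
  refine ⟨hint, (integral_mono hint hmaj hpw).trans ?_⟩
  rw [integral_const_mul, integral_add hAi hBi]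
  have h1 := mul_le_mul_of_nonneg_left (add_le_add hAle hBle)
    (by positivity : (0 : ℝ) ≤ (N : ℝ) ^ 2 + N * ct)
  refine h1.trans (le_of_eq ?_)
  unfold M2
  ring

/-! ### form boundedness -/

/-- a potential with `‖w u‖² ≤ M kin u` -/
structure SqBd (w : Conf N → ℝ) (M : ℝ) : Prop where
  meas : Measurable w
  nn : 0 ≤ M
  int : ∀ (u : HS N) (s : Spn N), Integrable (fun x => w x ^ 2 * ‖u.1 (s, none) x‖ ^ 2)
  le : ∀ (u : HS N) (s : Spn N), ∫ x, w x ^ 2 * ‖u.1 (s, none) x‖ ^ 2 ≤ M * ∑ i, kis u.1 s i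

theorem sqBd_pert (L : Finset κ) {c : κ → ℝ} (hc : ∀ k ∈ L, 0 ≤ c k) (y : κ → R3) :
    SqBd (pert L c y : Conf N → ℝ) (M2 N (∑ k ∈ L, c k)) where
  meas := measurable_pert L c y
  nn := M2_nonneg _ _
  int u s := (pert_int L hc y u s).1
  le u s := (pert_int L hc y u s).2

namespace SqBd

variable {w : Conf N → ℝ} {M : ℝ}

theorem memLp (h : SqBd w M) (u : HS N) (s : Spn N) :
    MemLp (fun x => ((w x : ℝ) : ℂ) * u.1 (s, none) x) 2 (volume : Measure (Conf N)) := by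
  have hm : AEStronglyMeasurable (fun x => ((w x : ℝ) : ℂ) * u.1 (s, none) x)
      (volume : Measure (Conf N)) :=
    (Complex.measurable_ofReal.comp h.meas).aestronglyMeasurable.mul (Lp.memLp _).1
  rw [memLp_two_iff_integrable_sq_norm hm]
  refine (h.int u s).congr (Eventually.of_forall fun x => ?_)
  simp only [norm_mul, Complex.norm_real, Real.norm_eq_abs, mul_pow, sq_abs]

/-- `w u` -/
def app (h : SqBd w M) (u : HS N) : LS N := WithLp.toLp 2 fun s => (h.memLp u s).toLp _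

theorem app_ae (h : SqBd w M) (u : HS N) (s : Spn N) :
    h.app u s =ᵐ[volume] fun x => ((w x : ℝ) : ℂ) * u.1 (s, none) x := (h.memLp u s).coeFn_toLp

theorem norm_app_sq (h : SqBd w M) (u : HS N) : ‖h.app u‖ ^ 2 ≤ M * kin u.1 := by
  rw [PiLp.norm_sq_eq_of_L2, kin_eq, Finset.mul_sum]
  refine Finset.sum_le_sum fun s _ => ?_
  rw [norm_LC_sq]
  refine le_trans (le_of_eq (integral_congr_ae ?_)) (h.le u s)
  filter_upwards [h.app_ae u s] with x hx
  rw [hx, norm_mul, Complex.norm_real, Real.norm_eq_abs, mul_pow, sq_abs]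

theorem potB_eq (h : SqBd w M) (u v : HS N) : potB w u v = inner ℂ (h.app u) (amH v) := by
  rw [potB, PiLp.inner_apply]
  refine Finset.sum_congr rfl fun s _ => ?_
  rw [L2.inner_def]
  refine integral_congr_ae ?_
  filter_upwards [h.app_ae u s] with x hx
  rw [hx, amH_apply]
  simp only [RCLike.inner_apply, map_mul, Complex.conj_ofReal]
  ring

theorem cross (h : SqBd w M) (u v : HS N) :
    ‖potB w u v‖ ≤ Real.sqrt (M * kin u.1) * ‖amH v‖ := by
  rw [h.potB_eq]
  refine (norm_inner_le_norm _ _).trans (mul_le_mul_of_nonneg_right ?_ (norm_nonneg _))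
  exact Real.le_sqrt_of_sq_le (h.norm_app_sq u)

theorem fbd (h : SqBd w M) : FBd w := by
  have hpw : ∀ (u : HS N) (s : Spn N) (x : Conf N), |w x| * ‖u.1 (s, none) x‖ ^ 2 ≤
      w x ^ 2 * ‖u.1 (s, none) x‖ ^ 2 + ‖u.1 (s, none) x‖ ^ 2 := by
    intro u s x
    have h1 : |w x| ≤ w x ^ 2 + 1 := by
      nlinarith [sq_nonneg (|w x| - 1), sq_abs (w x), abs_nonneg (w x)]
    have := mul_le_mul_of_nonneg_right h1 (sq_nonneg ‖u.1 (s, none) x‖)
    linarith
  have hmaj : ∀ (u : HS N) (s : Spn N), Integrable (fun x => w x ^ 2 * ‖u.1 (s, none) x‖ ^ 2 +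
      ‖u.1 (s, none) x‖ ^ 2) := fun u s =>
    (h.int u s).add ((Lp.memLp (u.1 (s, none))).integrable_norm_pow (by norm_num))
  have hint : ∀ (u : HS N) (s : Spn N),
      Integrable (fun x => |w x| * ‖u.1 (s, none) x‖ ^ 2) := by
    intro u s
    refine (hmaj u s).mono' ?_ (Eventually.of_forall fun x => ?_)
    · exact (h.meas.norm.aestronglyMeasurable).mul ((Lp.aestronglyMeasurable _).norm.pow 2)
    · rw [Real.norm_eq_abs, abs_of_nonneg (by positivity)]
      exact hpw u s x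
  refine ⟨h.meas.aestronglyMeasurable, hint, M + 1, by linarith [h.nn], fun u => ?_⟩
  have h1 : ∀ s, ∫ x, |w x| * ‖u.1 (s, none) x‖ ^ 2 ≤
      M * ∑ i, kis u.1 s i + ‖u.1 (s, none)‖ ^ 2 := by
    intro s
    refine (integral_mono (hint u s) (hmaj u s) (hpw u s)).trans ?_
    rw [integral_add (h.int u s)
      ((Lp.memLp (u.1 (s, none))).integrable_norm_pow (by norm_num)), norm_LC_sq]
    exact add_le_add (h.le u s) le_rfl
  refine (Finset.sum_le_sum fun s _ => h1 s).trans ?_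
  rw [Finset.sum_add_distrib, ← Finset.mul_sum, ← kin_eq, ← norm_am_sq]
  have h2 := norm_sq_eq u.1
  have h3 : ‖u‖ ^ 2 = ‖u.1‖ ^ 2 := rfl
  have h4 : 0 ≤ kin u.1 := Vale.Agent.P363.H518.kin_nonneg _
  have h5 := h.nn
  rw [h3, h2]
  nlinarith [sq_nonneg ‖am u.1‖, mul_nonneg h5 (sq_nonneg ‖am u.1‖)]

end SqBd

theorem fbd_add {w w' : Conf N → ℝ} (h : FBd w) (h' : FBd w') : FBd (fun x => w x + w' x) := by
  have hm : AEStronglyMeasurable (fun x => w x + w' x) volume := h.meas.add h'.meas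
  have hpw : ∀ (u : HS N) (s : Spn N) (x : Conf N), |w x + w' x| * ‖u.1 (s, none) x‖ ^ 2 ≤
      |w x| * ‖u.1 (s, none) x‖ ^ 2 + |w' x| * ‖u.1 (s, none) x‖ ^ 2 := by
    intro u s x
    have := mul_le_mul_of_nonneg_right (abs_add_le (w x) (w' x)) (sq_nonneg ‖u.1 (s, none) x‖)
    linarith
  have hint : ∀ (u : HS N) (s : Spn N),
      Integrable (fun x => |w x + w' x| * ‖u.1 (s, none) x‖ ^ 2) := by
    intro u s
    refine ((h.int u s).add (h'.int u s)).mono' ?_ (Eventually.of_forall fun x => ?_)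
    · exact (hm.norm).mul ((Lp.aestronglyMeasurable _).norm.pow 2)
    · rw [Real.norm_eq_abs, abs_of_nonneg (by positivity)]
      exact hpw u s x
  obtain ⟨C, hC, hb⟩ := h.bound
  obtain ⟨C', hC', hb'⟩ := h'.bound
  refine ⟨hm, hint, C + C', by linarith, fun u => ?_⟩
  have h1 : ∀ s, ∫ x, |w x + w' x| * ‖u.1 (s, none) x‖ ^ 2 ≤
      (∫ x, |w x| * ‖u.1 (s, none) x‖ ^ 2) + ∫ x, |w' x| * ‖u.1 (s, none) x‖ ^ 2 := by
    intro s
    refine (integral_mono (hint u s) ((h.int u s).add (h'.int u s)) (hpw u s)).trans ?_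
    exact le_of_eq (integral_add (h.int u s) (h'.int u s))
  refine (Finset.sum_le_sum fun s _ => h1 s).trans ?_
  rw [Finset.sum_add_distrib, add_mul]
  exact add_le_add (hb u) (hb' u)

theorem fbd_smul {w : Conf N → ℝ} (h : FBd w) (t : ℝ) : FBd (fun x => t * w x) := by
  have e : ∀ (u : HS N) (s : Spn N) (x : Conf N), |t * w x| * ‖u.1 (s, none) x‖ ^ 2 =
      |t| * (|w x| * ‖u.1 (s, none) x‖ ^ 2) := by
    intro u s x
    rw [abs_mul]; ring
  obtain ⟨C, hC, hb⟩ := h.bound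
  refine ⟨h.meas.const_mul t, fun u s => ?_, |t| * C, by positivity, fun u => ?_⟩
  · simp only [e]
    exact (h.int u s).const_mul _
  · simp only [e, integral_const_mul]
    rw [← Finset.mul_sum, mul_assoc]
    exact mul_le_mul_of_nonneg_left (hb u) (abs_nonneg t)

/-! ### lower bounds -/

theorem light_int (L : Finset κ) (c : κ → ℝ) (y : κ → R3) (u : HS N) (s : Spn N) :
    Integrable (fun x : Conf N => light L c y x * ‖u.1 (s, none) x‖ ^ 2) := by
  have e : (fun x : Conf N => light L c y x * ‖u.1 (s, none) x‖ ^ 2) = fun x =>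
      ∑ i, ∑ k ∈ L, c k * (‖u.1 (s, none) x‖ ^ 2 / ‖x i - y k‖) := by
    funext x
    unfold light
    rw [Finset.sum_mul]
    refine Finset.sum_congr rfl fun i _ => ?_
    rw [Finset.sum_mul]
    exact Finset.sum_congr rfl fun k _ => by ring
  rw [e]
  exact integrable_finsetSum _ fun i _ => integrable_finsetSum _ fun k _ =>
    (coul_one u s i (y k)).1.const_mul _

/-- form bound of the attraction. -/
theorem light_le (L : Finset κ) {c : κ → ℝ} (hc : ∀ k ∈ L, 0 ≤ c k) (y : κ → R3) (u : HS N)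
    {η : ℝ} (hη : 0 < η) : ∑ s, ∫ x : Conf N, light L c y x * ‖u.1 (s, none) x‖ ^ 2 ≤
      (∑ k ∈ L, c k) * (η * kin u.1 + (N / η) * ‖amH u‖ ^ 2) := by
  have h1 : ∀ s, ∫ x : Conf N, light L c y x * ‖u.1 (s, none) x‖ ^ 2 ≤
      (∑ k ∈ L, c k) * (η * (∑ i, kis u.1 s i) + (N / η) * ‖u.1 (s, none)‖ ^ 2) := by
    intro s
    have e : (fun x : Conf N => light L c y x * ‖u.1 (s, none) x‖ ^ 2) = fun x =>
        ∑ i, ∑ k ∈ L, c k * (‖u.1 (s, none) x‖ ^ 2 / ‖x i - y k‖) := by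
      funext x
      unfold light
      rw [Finset.sum_mul]
      refine Finset.sum_congr rfl fun i _ => ?_
      rw [Finset.sum_mul]
      exact Finset.sum_congr rfl fun k _ => by ring
    rw [e, integral_finsetSum _ fun i _ => integrable_finsetSum _ fun k _ =>
      (coul_one u s i (y k)).1.const_mul _]
    have h2 : ∀ i : Fin N, ∫ x : Conf N, ∑ k ∈ L, c k * (‖u.1 (s, none) x‖ ^ 2 / ‖x i - y k‖) ≤
        (∑ k ∈ L, c k) * (η * kis u.1 s i + (1 / η) * ‖u.1 (s, none)‖ ^ 2) := by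
      intro i
      rw [integral_finsetSum _ fun k _ => (coul_one u s i (y k)).1.const_mul _, Finset.sum_mul]
      refine Finset.sum_le_sum fun k hk => ?_
      rw [integral_const_mul]
      exact mul_le_mul_of_nonneg_left ((coul_one u s i (y k)).2 η hη) (hc k hk)
    refine (Finset.sum_le_sum fun i _ => h2 i).trans (le_of_eq ?_)
    rw [← Finset.mul_sum, Finset.sum_add_distrib, ← Finset.mul_sum, Finset.sum_const,
      Finset.card_univ, Fintype.card_fin, nsmul_eq_mul]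
    ring
  refine (Finset.sum_le_sum fun s _ => h1 s).trans (le_of_eq ?_)
  rw [← Finset.mul_sum, Finset.sum_add_distrib, ← Finset.mul_sum, ← Finset.mul_sum, ← kin_eq]
  have : ‖amH u‖ ^ 2 = ∑ s, ‖u.1 (s, none)‖ ^ 2 := norm_am_sq u.1
  rw [this]

theorem rep_nonneg (x : Conf N) : 0 ≤ rep x := by
  unfold rep
  exact Finset.sum_nonneg fun i _ => Finset.sum_nonneg fun j _ => by positivity

/-- lower bound of the perturbation. -/
theorem pert_ge (L : Finset κ) {c : κ → ℝ} (hc : ∀ k ∈ L, 0 ≤ c k) (y : κ → R3) (u : HS N)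
    {η : ℝ} (hη : 0 < η) :
    -((∑ k ∈ L, c k) * (η * kin u.1 + (N / η) * ‖amH u‖ ^ 2)) ≤
      ∑ s, ∫ x : Conf N, pert L c y x * ‖u.1 (s, none) x‖ ^ 2 := by
  have h1 := light_le L hc y u hη
  have h2 : ∀ s, -(∫ x : Conf N, light L c y x * ‖u.1 (s, none) x‖ ^ 2) ≤
      ∫ x : Conf N, pert L c y x * ‖u.1 (s, none) x‖ ^ 2 := by
    intro s
    rw [← integral_neg]
    refine integral_mono (light_int L c y u s).neg ((sqBd_pert L hc y).fbd.int' u s) fun x => ?_
    have h3 := mul_nonneg (rep_nonneg x) (sq_nonneg ‖u.1 (s, none) x‖)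
    simp only [pert]
    linarith
  have h3 := Finset.sum_le_sum fun s (_ : s ∈ (Finset.univ : Finset (Spn N))) => h2 s
  rw [Finset.sum_neg_distrib] at h3
  linarith

end

end Vale.Agent.P370.H546
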