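import Vale.Agent.P370.H546.Kern
import Vale.Agent.P370.H624.Shell
import Mathlib.Topology.Algebra.Module.Cardinality

/-! Block CK2: the closed form kernel `KK n · y` lies in the `n`-th shell: it is `wv (1/n) w` with
`w ∈ Un n` and `Kop (1/n) w = w`. -/

namespace Vale.Agent.P370.H546

open Set Real Filter Topology
open Vale.Agent.P363.H849
open Vale.Agent.P370.H32
open MvPolynomial (pderiv)

noncomputable section

/-! ### the polynomial part -/

theorem isPair_uv_add (y : R3) : IsPair 1 (fun x => uu x y + vv x y) := by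
  have h : (fun x : R3 => uu x y + vv x y) = fun x => 2 * ‖x‖ + 2 * ‖y‖ := by
    funext x; simp only [uu, vv]; ring
  rw [h]
  exact (isPair_norm.smul 2).add ((isPair_const (2 * ‖y‖)).mono (Nat.zero_le 1))

theorem isPair_uv_mul (y : R3) : IsPair 1 (fun x => uu x y * vv x y) := by
  have h : (fun x : R3 => uu x y * vv x y) = fun x => (2 * ‖y‖) * ‖x‖ + 2 * inner ℝ x y := by
    funext x
    have h1 : ‖x - y‖ ^ 2 = ‖x‖ ^ 2 - 2 * inner ℝ x y + ‖y‖ ^ 2 := norm_sub_sq_real x y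
    simp only [uu, vv]
    linear_combination -h1
  rw [h]
  exact (isPair_norm.smul (2 * ‖y‖)).add ((isPair_inner y).smul 2)

theorem isPair_hsym (y : R3) (m : ℕ) : IsPair m (fun x => hsym m (uu x y) (vv x y)) ∧
    IsPair (m + 1) (fun x => hsym (m + 1) (uu x y) (vv x y)) := by
  induction m with
  | zero =>
    constructor
    · simp only [hsym_zero]; exact isPair_const 1
    · have h : (fun x : R3 => hsym 1 (uu x y) (vv x y)) = fun x => uu x y + vv x y := by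
        funext x
        rw [hsym_succ 0, hsym_zero]; ring
      rw [show (0 + 1 : ℕ) = 1 from rfl, h]
      exact isPair_uv_add y
  | succ m ih =>
    refine ⟨ih.2, ?_⟩
    simp only [show m + 1 + 1 = m + 2 from rfl, hsym_rec]
    have h1 := (isPair_uv_add y).mul ih.2
    have h2 := (isPair_uv_mul y).mul ih.1
    rw [show 1 + (m + 1) = m + 2 by omega] at h1
    exact h1.sub (h2.mono (by omega))

theorem isPair_Ssym (y : R3) (n : ℕ) : IsPair (n - 1) (fun x => Ssym n (uu x y) (vv x y)) := by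
  unfold Ssym
  have h : IsPair (n - 1) (fun x => ∑ j ∈ Finset.range (n + 1), ∑ i ∈ Finset.range j,
      ((j : ℝ) - i) * ((aQ n i : ℚ) : ℝ) * ((aQ n j : ℚ) : ℝ) * (uu x y * vv x y) ^ i
        * hsym (j - i - 1) (uu x y) (vv x y)) := by
    refine IsPair.sum _ fun j hj => IsPair.sum _ fun i hi => ?_
    have hj' := Finset.mem_range.1 hj
    have hi' := Finset.mem_range.1 hi
    have h1 := (((isPair_uv_mul y).pow i).smul (((j : ℝ) - i) * ((aQ n i : ℚ) : ℝ)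
      * ((aQ n j : ℚ) : ℝ))).mul (isPair_hsym y (j - i - 1)).1
    exact h1.mono (by omega)
  have h2 := h.smul (-1)
  refine ⟨h2.choose, h2.choose_spec.1, fun x => ?_⟩
  rw [← h2.choose_spec.2]
  ring

/-! ### the equation -/

theorem w2_of_F0 {κ : ℝ} (hκ : 0 < κ) (w : Poly × Poly) (P : MvPolynomial (Fin 2) ℝ) (y : R3)
    (h : ∀ z, wv κ w z = F0 κ ‖y‖ P ‖z‖ ‖z - y‖) {x : R3} (hx : x ≠ 0) (hxy : x - y ≠ 0)
    (k : Fin 3) :
    w2 κ w k x = F2 κ ‖y‖ P ‖x‖ ‖x - y‖ (x k) ((x - y) k) := by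
  have e1 : ∀ t, wv κ w (cur x k t) = F0 κ ‖y‖ P ‖cur x k t‖ ‖cur (x - y) k t‖ := by
    intro t
    rw [h, cur_sub]
  have hE : (fun t => w1 κ w k (cur x k t)) =ᶠ[𝓝 0]
      fun t => F1 κ ‖y‖ P ‖cur x k t‖ ‖cur (x - y) k t‖ (x k + t) ((x - y) k + t) := by
    filter_upwards [cur_ne hx k, cur_ne hxy k] with t ht ht'
    have d1 := wv_line hκ w ht
    have d2 : HasDerivAt (fun t => F0 κ ‖y‖ P ‖cur x k t‖ ‖cur (x - y) k t‖)
        (F1 κ ‖y‖ P ‖cur x k t‖ ‖cur (x - y) k t‖ (x k + t) ((x - y) k + t)) t :=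
      F0_hasDerivAt κ ‖y‖ P (r := fun t => ‖cur x k t‖) (s := fun t => ‖cur (x - y) k t‖)
        (a := fun t => x k + t) (b := fun t => (x - y) k + t) (norm_line ht) (norm_line ht')
    have e2 : (fun t => wv κ w (cur x k t)) = fun t => F0 κ ‖y‖ P ‖cur x k t‖ ‖cur (x - y) k t‖ :=
      funext e1
    rw [e2] at d1
    exact d1.unique d2
  have hx0 : cur x k 0 ≠ 0 := by rwa [cur_zero]
  have hxy0 : cur (x - y) k 0 ≠ 0 := by rwa [cur_zero]
  have D1 := w1_line hκ w hx0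
  have D2 : HasDerivAt (fun t => F1 κ ‖y‖ P ‖cur x k t‖ ‖cur (x - y) k t‖ (x k + t) ((x - y) k + t))
      (F2 κ ‖y‖ P ‖cur x k 0‖ ‖cur (x - y) k 0‖ (x k + 0) ((x - y) k + 0)) 0 :=
    F1_hasDerivAt κ ‖y‖ P (r := fun t => ‖cur x k t‖) (s := fun t => ‖cur (x - y) k t‖)
        (a := fun t => x k + t) (b := fun t => (x - y) k + t)
        (norm_ne_zero_iff.2 hx0) (norm_ne_zero_iff.2 hxy0) (norm_line hx0) (norm_line hxy0)
        ((hasDerivAt_id (0 : ℝ)).const_add (x k)) ((hasDerivAt_id (0 : ℝ)).const_add ((x - y) k))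
  have := (D1.congr_of_eventuallyEq hE.symm).unique D2
  rw [cur_zero, cur_zero, add_zero, add_zero] at this
  exact this

theorem Kop_of_F0 {n : ℕ} (hn : 1 ≤ n) (w : Poly × Poly) (y : R3)
    (h : ∀ z, wv (1 / (n : ℝ)) w z = F0 (1 / (n : ℝ)) ‖y‖ (SP n) ‖z‖ ‖z - y‖) {x : R3}
    (hx : x ≠ 0) (hxy : x - y ≠ 0) :
    wv (1 / (n : ℝ)) (Kop (1 / (n : ℝ)) w) x = wv (1 / (n : ℝ)) w x := by
  have hκ : 0 < 1 / (n : ℝ) := by
    have : (0 : ℝ) < n := by exact_mod_cast hn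
    positivity
  have hr : ‖x‖ ≠ 0 := norm_ne_zero_iff.2 hx
  have hs : ‖x - y‖ ≠ 0 := norm_ne_zero_iff.2 hxy
  have hsum : ∑ k, F2 (1 / (n : ℝ)) ‖y‖ (SP n) ‖x‖ ‖x - y‖ (x k) ((x - y) k)
      = ((1 / (n : ℝ)) ^ 2 - 2 / ‖x‖) * F0 (1 / (n : ℝ)) ‖y‖ (SP n) ‖x‖ ‖x - y‖ := by
    refine F2_sum (1 / (n : ℝ)) ‖y‖ (SP n) hr hs (fun k => x k) (fun k => (x - y) k)
      (norm_sq_R3 x).symm (norm_sq_R3 (x - y)).symm ?_ ?_
    · rw [norm_sq_R3 y]
      apply Finset.sum_congr rfl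
      intro k _
      have : (x - y) k = x k - y k := rfl
      rw [this]; ring
    · have hne : ‖x‖ + ‖y‖ + ‖x - y‖ ≠ ‖x‖ + ‖y‖ - ‖x - y‖ := by
        intro h0
        apply hs
        linarith
      have := SP_eq hn ‖y‖ (‖x‖ + ‖y‖ + ‖x - y‖) (‖x‖ + ‖y‖ - ‖x - y‖) hne
      linear_combination this
  rw [← half_r_lap (1 / (n : ℝ)) w hx]
  have h2 : ∑ k, w2 (1 / (n : ℝ)) w k x
      = ∑ k, F2 (1 / (n : ℝ)) ‖y‖ (SP n) ‖x‖ ‖x - y‖ (x k) ((x - y) k) :=
    Finset.sum_congr rfl fun k _ => w2_of_F0 hκ w (SP n) y h hx hxy k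
  rw [h2, hsum, ← h x]
  field_simp
  ring

theorem pv_sub (a b : Poly × Poly) (x : R3) : pv (a - b) x = pv a x - pv b x := by
  simp only [pv, Prod.fst_sub, Prod.snd_sub, ev_sub]
  ring

theorem pv_smul (c : ℝ) (a : Poly × Poly) (x : R3) : pv (c • a) x = c * pv a x := by
  simp only [pv, Prod.smul_fst, Prod.smul_snd, ev_smul]
  ring

theorem eq_of_wv {κ : ℝ} {a b : Poly × Poly} (h : ∀ x, wv κ a x = wv κ b x) : a = b := by
  rw [← sub_eq_zero]
  apply pv_injective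
  intro x
  rw [pv_sub]
  have := h x
  rw [wv_eq_pv, wv_eq_pv] at this
  have := mul_right_cancel₀ (exp_pos _).ne' this
  linarith

theorem Ssym_shell {n : ℕ} (hn : 1 ≤ n) (y : R3) : ∃ w ∈ Un n, Kop (1 / (n : ℝ)) w = w ∧
    ∀ x, pv w x = Ssym n (uu x y) (vv x y) := by
  obtain ⟨w, hw, h⟩ := isPair_Ssym y n
  rw [Nat.sub_add_cancel hn] at hw
  refine ⟨w, hw, ?_, fun x => (h x).symm⟩
  have hF : ∀ z, wv (1 / (n : ℝ)) w z = F0 (1 / (n : ℝ)) ‖y‖ (SP n) ‖z‖ ‖z - y‖ := by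
    intro z
    rw [wv_eq_pv, ← h z, F0, e2_SP]
    rfl
  apply eq_of_wv (κ := 1 / (n : ℝ))
  have hd : Dense (({0, y} : Set R3)ᶜ) := Set.Countable.dense_compl ℝ (Set.toFinite ({0, y} : Set R3)).countable
  have := Continuous.ext_on hd (wv_continuous (1 / (n : ℝ)) (Kop (1 / (n : ℝ)) w))
    (wv_continuous (1 / (n : ℝ)) w) (fun x hx => by
      simp only [mem_compl_iff, mem_insert_iff, mem_singleton_iff, not_or] at hx
      exact Kop_of_F0 hn w y hF hx.1 (sub_ne_zero.2 hx.2))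
  intro x
  exact congrFun this x

/-- **CK2.** The kernel lies in the shell. -/
theorem KK_shell {n : ℕ} (hn : 1 ≤ n) (y : R3) : ∃ w ∈ Un n, Kop (1 / (n : ℝ)) w = w ∧
    ∀ x, wv (1 / (n : ℝ)) w x = KK n x y := by
  obtain ⟨w, hw, hK, h⟩ := Ssym_shell hn y
  have hn0 : (n : ℝ) ≠ 0 := by positivity
  refine ⟨(2 / (π * A0 n) * exp (-(‖y‖ / n))) • w, (Un n).smul_mem _ hw, ?_, fun x => ?_⟩
  · have := (Vale.Agent.P370.H624.KL (1 / (n : ℝ))).map_smul (2 / (π * A0 n) * exp (-(‖y‖ / n))) w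
    simp only [Vale.Agent.P370.H624.KL_apply] at this
    rw [this, hK]
  · rw [wv_eq_pv, pv_smul, h, KK]
    have : exp (-((‖x‖ + ‖y‖) / n)) = exp (-(‖y‖ / n)) * exp (-(1 / (n : ℝ)) * ‖x‖) := by
      rw [← exp_add]
      congr 1
      field_simp
      ring
    rw [this]
    ring

end

end Vale.Agent.P370.H546
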