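import Vale.Agent.P370.C2.Hardy
import Vale.Agent.P370.H405.C2Proj

/-!
P370, block C2: the Hardy bounds in the form used by helper405 (`H405.C2.Adm`, `ElectronState`).
-/

namespace Vale.Agent.P370.H546

open MeasureTheory Filter Topology
open Vale.Agent.P363.Stmt Vale.Agent.P363.R.Sob Vale.Agent.P363.R.Top
open Vale.Agent.P363.H382 (toFS incl amH kinE_toFS)
open Vale.Agent.P370.C2 (pV pV_eq kin kin_eq_kin amp_ae adm_pVh hardy_cross V1_geh pot_zero_eq
  normSq_eq_amH card_sum)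
open scoped ContDiff ENNReal ComplexConjugate

noncomputable section

variable {N : ℕ} {κ : Type}

/-- attraction by the light unit charges -/
def vL (L : Finset κ) (y : κ → R3) (r : R3) : ℝ := -∑ k ∈ L, 1 / ‖r - y k‖

theorem pV_def (L : Finset κ) (y : κ → R3) :
    (pV L y : Conf N → ℝ) = fun x => sumPotential (vL L y) x + rep x := rfl

theorem adm405 (L : Finset κ) (y : κ → R3) :
    H405.C2.Adm (fun x : Conf N => sumPotential (vL L y) x + rep x) where
  meas := (adm_pVh L y).meas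
  int Ψ s := (adm_pVh L y).int _ _ (Ψ.amp_memLp s) (fun i k => Ψ.grad_memLp s i k)
    (fun i k => Vale.Agent.P363.H382.isWeakDeriv_iff.1 (Ψ.grad_weak s i k))

/-- one term -/
theorem int_inv (Ψ : ElectronState N) (s : Fin N → Fin 2) (i : Fin N) (a : R3) :
    Integrable (fun x : Conf N => ‖Ψ.amp s x‖ ^ 2 / ‖x i - a‖) := by
  have h := (coul_one (incl (toFS Ψ)) s i a).1
  refine h.congr ?_
  filter_upwards [amp_ae Ψ s] with x hx
  rw [hx]

theorem adm_vH405 : H405.C2.Adm (sumPotential H405.C2.vH : Conf N → ℝ) where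
  meas := by
    have : Measurable (sumPotential H405.C2.vH : Conf N → ℝ) := by
      unfold sumPotential H405.C2.vH
      refine Finset.measurable_sum _ fun i _ => Measurable.neg ?_
      exact measurable_const.div (measurable_pi_apply i).norm
    exact this.aestronglyMeasurable
  int Ψ s := by
    have e : (fun x : Conf N => sumPotential H405.C2.vH x * ‖Ψ.amp s x‖ ^ 2) = fun x =>
        ∑ i, -(‖Ψ.amp s x‖ ^ 2 / ‖x i - 0‖) := by
      funext x
      unfold sumPotential H405.C2.vH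
      rw [Finset.sum_mul]
      refine Finset.sum_congr rfl fun i _ => ?_
      rw [sub_zero]; ring
    rw [e]
    exact integrable_finsetSum _ fun i _ => (int_inv Ψ s i 0).neg

theorem adm_vL405 (L : Finset κ) (y : κ → R3) :
    H405.C2.Adm (sumPotential (vL L y) : Conf N → ℝ) where
  meas := by
    have : Measurable (sumPotential (vL L y) : Conf N → ℝ) := by
      unfold sumPotential vL
      refine Finset.measurable_sum _ fun i _ => Measurable.neg ?_
      refine Finset.measurable_sum _ fun k _ => ?_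
      exact measurable_const.div ((measurable_pi_apply i).sub measurable_const).norm
    exact this.aestronglyMeasurable
  int Ψ s := by
    have e : (fun x : Conf N => sumPotential (vL L y) x * ‖Ψ.amp s x‖ ^ 2) = fun x =>
        ∑ i, -∑ k ∈ L, (‖Ψ.amp s x‖ ^ 2 / ‖x i - y k‖) := by
      funext x
      unfold sumPotential vL
      rw [Finset.sum_mul]
      refine Finset.sum_congr rfl fun i _ => ?_
      rw [neg_mul, Finset.sum_mul]
      congr 1
      exact Finset.sum_congr rfl fun k _ => by ring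
    rw [e]
    exact integrable_finsetSum _ fun i _ => (integrable_finsetSum _ fun k _ =>
      int_inv Ψ s i (y k)).neg

/-- (2) -/
theorem sq405 (L : Finset κ) (y : κ → R3) (Φ : ElectronState N) :
    (∀ s, Integrable (fun x : Conf N =>
      (sumPotential (vL L y) x + rep x) ^ 2 * ‖Φ.amp s x‖ ^ 2)) ∧
    ∑ s, ∫ x : Conf N, (sumPotential (vL L y) x + rep x) ^ 2 * ‖Φ.amp s x‖ ^ 2 ≤
      4 * N * ((N : ℝ) + L.card) ^ 2 *
        ∑ s, ∑ i, ∑ k, ∫ x : Conf N, ‖Φ.grad s i k x‖ ^ 2 := by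
  have hb := sqBd_pert (N := N) L (c := fun _ => (1 : ℝ)) (fun _ _ => zero_le_one) y
  have hae : ∀ s, (fun x : Conf N => (sumPotential (vL L y) x + rep x) ^ 2 * ‖Φ.amp s x‖ ^ 2)
      =ᵐ[volume] fun x => pert L (fun _ => 1) y x ^ 2 *
        ‖(incl (toFS Φ)).1 (s, none) x‖ ^ 2 := by
    intro s
    filter_upwards [amp_ae Φ s] with x hx
    rw [hx, ← pV_eq]
    rfl
  refine ⟨fun s => (hb.int (incl (toFS Φ)) s).congr (hae s).symm, ?_⟩
  have h1 : ∀ s, ∫ x : Conf N, (sumPotential (vL L y) x + rep x) ^ 2 * ‖Φ.amp s x‖ ^ 2 ≤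
      M2 N (∑ _k ∈ L, (1 : ℝ)) * ∑ i, kis (incl (toFS Φ)).1 s i := by
    intro s
    rw [integral_congr_ae (hae s)]
    exact hb.le _ s
  refine (Finset.sum_le_sum fun s _ => h1 s).trans (le_of_eq ?_)
  rw [← Finset.mul_sum, ← kin_eq, card_sum, ← kin_eq_kin]
  rfl

/-- (3) -/
theorem lower405 (L : Finset κ) (y : κ → R3) (Φ : ElectronState N) :
    -(L.card * ((∑ s, ∑ i, ∑ k, ∫ x : Conf N, ‖Φ.grad s i k x‖ ^ 2) + N * normSq Φ)) ≤
      ∑ s, ∫ x : Conf N, sumPotential (vL L y) x * ‖Φ.amp s x‖ ^ 2 := by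
  have h := light_le (N := N) L (c := fun _ => (1 : ℝ)) (fun _ _ => zero_le_one) y
    (incl (toFS Φ)) one_pos
  rw [← kin_eq_kin, ← normSq_eq_amH, card_sum] at h
  have e1 : ∀ s, ∫ x : Conf N, sumPotential (vL L y) x * ‖Φ.amp s x‖ ^ 2 =
      -∫ x : Conf N, light L (fun _ => 1) y x * ‖(incl (toFS Φ)).1 (s, none) x‖ ^ 2 := by
    intro s
    rw [← integral_neg]
    refine integral_congr_ae ?_
    filter_upwards [amp_ae Φ s] with x hx
    rw [hx]
    unfold sumPotential vL light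
    rw [Finset.sum_neg_distrib]
    ring
  rw [Finset.sum_congr rfl fun s _ => e1 s, Finset.sum_neg_distrib]
  have e2 : (∑ s, ∑ i, ∑ k, ∫ x : Conf N, ‖Φ.grad s i k x‖ ^ 2) = kin Φ := rfl
  rw [e2]
  refine neg_le_neg (h.trans (le_of_eq ?_))
  ring

/-- (4) -/
theorem kin405 (Φ : ElectronState N) :
    (∑ s, ∑ i, ∑ k, ∫ x : Conf N, ‖Φ.grad s i k x‖ ^ 2) ≤
      4 * energy (sumPotential H405.C2.vH) Φ + 16 * N * normSq Φ := by
  have h := C2.kin_le Φ
  have e : (sumPotential H405.C2.vH : Conf N → ℝ) = pot 0 := by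
    funext x
    unfold sumPotential H405.C2.vH pot
    rw [zero_mul, add_zero]
  rw [e]
  have e2 : (∑ s, ∑ i, ∑ k, ∫ x : Conf N, ‖Φ.grad s i k x‖ ^ 2) = kin Φ := rfl
  rw [e2]
  linarith

/-- cross term -/
theorem cross405 (L : Finset κ) (y : κ → R3) (Φ Q : ElectronState N) :
    ‖∑ s, ∫ x : Conf N, (((sumPotential (vL L y) x + rep x : ℝ)) : ℂ) *
        (conj (Φ.amp s x) * Q.amp s x)‖ ≤
      2 * N * (L.card + N) *
        Real.sqrt (∑ s, ∑ i, ∑ k, ∫ x : Conf N, ‖Φ.grad s i k x‖ ^ 2) *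
        Real.sqrt (normSq Q) :=
  hardy_cross L y Φ Q

end

end Vale.Agent.P370.H546
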