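import Vale.Agent.P370.H546.SSide
import Vale.Agent.P370.H32.Defs

/-! Block CK2: the closed form kernel `KK n · y` lies in the `n`-th shell. -/

namespace Vale.Agent.P370.H546

open Set Real Filter Topology
open Vale.Agent.P363.H849
open Vale.Agent.P370.H32
open MvPolynomial (pderiv)

noncomputable section

/-! ### the Laguerre polynomial -/

theorem Lp_coeff (n m : ℕ) : (Lp n).coeff m = if m ≤ n then ((aQ n m : ℚ) : ℝ) else 0 := by
  unfold Lp
  rw [Polynomial.finsetSum_coeff]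
  simp only [Polynomial.coeff_C_mul, Polynomial.coeff_X_pow]
  by_cases h : m ≤ n
  · rw [if_pos h, Finset.sum_eq_single m]
    · simp
    · intro b _ hb
      rw [if_neg (Ne.symm hb), mul_zero]
    · intro hm
      exact absurd (Finset.mem_range.2 (by omega)) hm
  · rw [if_neg h]
    apply Finset.sum_eq_zero
    intro b hb
    have := Finset.mem_range.1 hb
    rw [if_neg (by omega), mul_zero]

theorem aQ_succ (n i : ℕ) :
    ((i : ℝ) + 1) ^ 2 * ((aQ n (i + 1) : ℚ) : ℝ) = ((i : ℝ) / n - 1) * ((aQ n i : ℚ) : ℝ) := by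
  have h : ((i : ℝ) + 1) ≠ 0 := by positivity
  rw [aQ]
  push_cast
  field_simp

/-- Laguerre's equation -/
theorem Lp_ode {n : ℕ} (hn : 1 ≤ n) :
    Polynomial.X * (Lp n).derivative.derivative
      + (1 - Polynomial.C (1 / (n : ℝ)) * Polynomial.X) * (Lp n).derivative + Lp n = 0 := by
  have hn0 : (n : ℝ) ≠ 0 := by positivity
  ext m
  have h1 : (Polynomial.X * (Lp n).derivative.derivative).coeff m
      = (m : ℝ) * ((m : ℝ) + 1) * (Lp n).coeff (m + 1) := by
    cases m with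
    | zero => simp
    | succ m =>
      rw [Polynomial.coeff_X_mul, Polynomial.coeff_derivative, Polynomial.coeff_derivative]
      push_cast
      ring
  have h2 : ((1 - Polynomial.C (1 / (n : ℝ)) * Polynomial.X) * (Lp n).derivative).coeff m
      = ((m : ℝ) + 1) * (Lp n).coeff (m + 1) - (m : ℝ) / n * (Lp n).coeff m := by
    rw [sub_mul, one_mul, mul_assoc, Polynomial.coeff_sub, Polynomial.coeff_C_mul]
    cases m with
    | zero => simp [Polynomial.coeff_derivative]
    | succ m =>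
      rw [Polynomial.coeff_X_mul, Polynomial.coeff_derivative, Polynomial.coeff_derivative]
      push_cast
      ring
  rw [Polynomial.coeff_add, Polynomial.coeff_add, h1, h2, Polynomial.coeff_zero, Lp_coeff, Lp_coeff]
  rcases lt_trichotomy m n with h | h | h
  · rw [if_pos (by omega), if_pos (by omega)]
    have := aQ_succ n m
    linear_combination this
  · subst h
    rw [if_neg (by omega), if_pos le_rfl]
    field_simp
    ring
  · rw [if_neg (by omega), if_neg (by omega)]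
    ring

/-! ### the symmetric polynomial -/

theorem hsym_succ (m : ℕ) (u v : ℝ) : hsym (m + 1) u v = u * hsym m u v + v ^ (m + 1) := by
  unfold hsym
  rw [Finset.sum_range_succ', Finset.mul_sum]
  congr 1
  · apply Finset.sum_congr rfl
    intro l hl
    have := Finset.mem_range.1 hl
    rw [show m + 1 - (l + 1) = m - l by omega]
    ring
  · simp

theorem hsym_zero (u v : ℝ) : hsym 0 u v = 1 := by simp [hsym]

theorem hsym_mul (m : ℕ) (u v : ℝ) : (u - v) * hsym m u v = u ^ (m + 1) - v ^ (m + 1) := by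
  induction m with
  | zero => rw [hsym_zero]; ring
  | succ m ih =>
    rw [hsym_succ]
    linear_combination u * ih

theorem hsym_rec (m : ℕ) (u v : ℝ) :
    hsym (m + 2) u v = (u + v) * hsym (m + 1) u v - u * v * hsym m u v := by
  rw [hsym_succ (m + 1), hsym_succ m]
  ring

theorem double_sum (f : ℕ → ℕ → ℝ) (N : ℕ) :
    ∑ j ∈ Finset.range N, ∑ i ∈ Finset.range N, f i j
      = ∑ j ∈ Finset.range N, (∑ i ∈ Finset.range j, (f i j + f j i) + f j j) := by
  induction N with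
  | zero => simp
  | succ N ih =>
    rw [Finset.sum_range_succ, Finset.sum_range_succ (fun j => ∑ i ∈ Finset.range j, (f i j + f j i) + f j j),
      ← ih]
    have : ∀ j, ∑ i ∈ Finset.range (N + 1), f i j = ∑ i ∈ Finset.range N, f i j + f N j := fun j =>
      Finset.sum_range_succ _ _
    simp only [this]
    rw [Finset.sum_add_distrib, Finset.sum_add_distrib]
    ring

theorem Lp_eval (n : ℕ) (u : ℝ) :
    (Lp n).eval u = ∑ i ∈ Finset.range (n + 1), ((aQ n i : ℚ) : ℝ) * u ^ i := by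
  simp [Lp, Polynomial.eval_finsetSum]

theorem Lp_deriv_eval (n : ℕ) (u : ℝ) :
    u * (Lp n).derivative.eval u = ∑ i ∈ Finset.range (n + 1), (i : ℝ) * ((aQ n i : ℚ) : ℝ) * u ^ i := by
  simp only [Lp, Polynomial.derivative_sum, Polynomial.eval_finsetSum, Finset.mul_sum]
  apply Finset.sum_congr rfl
  intro i _
  cases i with
  | zero => simp
  | succ i =>
    simp only [Polynomial.derivative_C_mul, Polynomial.derivative_X_pow, Polynomial.eval_mul,
      Polynomial.eval_C, Polynomial.eval_pow, Polynomial.eval_X, Nat.add_sub_cancel]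
    push_cast
    ring

theorem Ssym_mul (n : ℕ) (u v : ℝ) :
    (u - v) * Ssym n u v = v * (Lp n).derivative.eval v * (Lp n).eval u
      - u * (Lp n).derivative.eval u * (Lp n).eval v := by
  rw [Lp_deriv_eval, Lp_deriv_eval, Lp_eval, Lp_eval, Finset.sum_mul_sum, Finset.sum_mul_sum,
    ← Finset.sum_sub_distrib]
  have h1 : ∀ j ∈ Finset.range (n + 1),
      (∑ i ∈ Finset.range (n + 1), (j : ℝ) * ((aQ n j : ℚ) : ℝ) * v ^ j * (((aQ n i : ℚ) : ℝ) * u ^ i)
        - ∑ i ∈ Finset.range (n + 1), (j : ℝ) * ((aQ n j : ℚ) : ℝ) * u ^ j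
          * (((aQ n i : ℚ) : ℝ) * v ^ i))
      = ∑ i ∈ Finset.range (n + 1), (j : ℝ) * (((aQ n i : ℚ) : ℝ) * ((aQ n j : ℚ) : ℝ)
          * (u ^ i * v ^ j - u ^ j * v ^ i)) := by
    intro j _
    rw [← Finset.sum_sub_distrib]
    exact Finset.sum_congr rfl fun i _ => by ring
  rw [Finset.sum_congr rfl h1, double_sum (fun i j => (j : ℝ) * (((aQ n i : ℚ) : ℝ) * ((aQ n j : ℚ) : ℝ)
          * (u ^ i * v ^ j - u ^ j * v ^ i)))]
  unfold Ssym
  rw [mul_neg, Finset.mul_sum, ← Finset.sum_neg_distrib]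
  apply Finset.sum_congr rfl
  intro j _
  rw [sub_self, mul_zero, mul_zero, add_zero, Finset.mul_sum, ← Finset.sum_neg_distrib]
  apply Finset.sum_congr rfl
  intro i hi
  have hij := Finset.mem_range.1 hi
  have h2 := hsym_mul (j - i - 1) u v
  rw [show j - i - 1 + 1 = j - i by omega] at h2
  have h3 : u ^ j = u ^ i * u ^ (j - i) := by rw [← pow_add]; congr 1; omega
  have h4 : v ^ j = v ^ i * v ^ (j - i) := by rw [← pow_add]; congr 1; omega
  rw [h3, h4, mul_pow]
  linear_combination (-(((j : ℝ) - i) * ((aQ n i : ℚ) : ℝ) * ((aQ n j : ℚ) : ℝ) * (u ^ i * v ^ i))) * h2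

/-- the symmetric polynomial as a polynomial in two variables -/
def SP (n : ℕ) : MvPolynomial (Fin 2) ℝ :=
  -∑ j ∈ Finset.range (n + 1), ∑ i ∈ Finset.range j,
    MvPolynomial.C (((j : ℝ) - i) * ((aQ n i : ℚ) : ℝ) * ((aQ n j : ℚ) : ℝ))
      * (MvPolynomial.X 0 * MvPolynomial.X 1) ^ i
      * ∑ l ∈ Finset.range (j - i - 1 + 1),
          MvPolynomial.X 0 ^ l * MvPolynomial.X 1 ^ (j - i - 1 - l)

theorem e2_SP (n : ℕ) (u v : ℝ) : e2 (SP n) u v = Ssym n u v := by
  simp only [e2, SP, Ssym, hsym, map_neg, map_sum, map_mul, map_pow, MvPolynomial.eval_C,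
    MvPolynomial.eval_X, Matrix.cons_val_zero, Matrix.cons_val_one, Matrix.cons_val_fin_one]

/-- one-variable polynomial in the variable `X i` -/
def aX (i : Fin 2) (p : Polynomial ℝ) : MvPolynomial (Fin 2) ℝ :=
  Polynomial.aeval (MvPolynomial.X i) p

theorem e2_aX0 (p : Polynomial ℝ) (u v : ℝ) : e2 (aX 0 p) u v = p.eval u := by
  have h := Polynomial.hom_eval₂ p (algebraMap ℝ (MvPolynomial (Fin 2) ℝ))
    (MvPolynomial.eval ![u, v]) (MvPolynomial.X 0)
  have h2 : (MvPolynomial.eval ![u, v]).comp (algebraMap ℝ (MvPolynomial (Fin 2) ℝ)) = RingHom.id ℝ := by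
    ext r; simp [MvPolynomial.algebraMap_eq]
  rw [h2] at h
  rw [e2, aX, Polynomial.aeval_def, h]
  simp [Polynomial.eval₂_id]

theorem e2_aX1 (p : Polynomial ℝ) (u v : ℝ) : e2 (aX 1 p) u v = p.eval v := by
  have h := Polynomial.hom_eval₂ p (algebraMap ℝ (MvPolynomial (Fin 2) ℝ))
    (MvPolynomial.eval ![u, v]) (MvPolynomial.X 1)
  have h2 : (MvPolynomial.eval ![u, v]).comp (algebraMap ℝ (MvPolynomial (Fin 2) ℝ)) = RingHom.id ℝ := by
    ext r; simp [MvPolynomial.algebraMap_eq]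
  rw [h2] at h
  rw [e2, aX, Polynomial.aeval_def, h]
  simp [Polynomial.eval₂_id]

theorem pderiv_aX_same (i : Fin 2) (p : Polynomial ℝ) : pderiv i (aX i p) = aX i p.derivative := by
  rw [aX, Derivation.comp_aeval_eq]
  simp [aX]

theorem pderiv_aX_ne {i j : Fin 2} (h : i ≠ j) (p : Polynomial ℝ) : pderiv i (aX j p) = 0 := by
  rw [aX, Derivation.comp_aeval_eq, MvPolynomial.pderiv_X_of_ne (Ne.symm h)]
  simp

theorem SP_mul (n : ℕ) :
    (MvPolynomial.X 0 - MvPolynomial.X 1) * SP n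
      = MvPolynomial.X 1 * aX 1 (Lp n).derivative * aX 0 (Lp n)
        - MvPolynomial.X 0 * aX 0 (Lp n).derivative * aX 1 (Lp n) := by
  apply MvPolynomial.funext
  intro x
  have hx : x = ![x 0, x 1] := by
    funext i; fin_cases i <;> rfl
  rw [hx]
  have h0 := e2_aX0 (Lp n) (x 0) (x 1)
  have h1 := e2_aX1 (Lp n) (x 0) (x 1)
  have h2 := e2_aX0 (Lp n).derivative (x 0) (x 1)
  have h3 := e2_aX1 (Lp n).derivative (x 0) (x 1)
  have h4 := e2_SP n (x 0) (x 1)
  unfold e2 at h0 h1 h2 h3 h4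
  simp only [map_mul, map_sub, MvPolynomial.eval_X, h0, h1, h2, h3, h4, Matrix.cons_val_zero,
    Matrix.cons_val_one, Matrix.cons_val_fin_one]
  exact Ssym_mul n (x 0) (x 1)

theorem e2_add (p q : MvPolynomial (Fin 2) ℝ) (u v : ℝ) : e2 (p + q) u v = e2 p u v + e2 q u v := by
  simp [e2]
theorem e2_sub (p q : MvPolynomial (Fin 2) ℝ) (u v : ℝ) : e2 (p - q) u v = e2 p u v - e2 q u v := by
  simp [e2]
theorem e2_mul (p q : MvPolynomial (Fin 2) ℝ) (u v : ℝ) : e2 (p * q) u v = e2 p u v * e2 q u v := by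
  simp [e2]
theorem e2_X0 (u v : ℝ) : e2 (MvPolynomial.X 0) u v = u := by simp [e2]
theorem e2_X1 (u v : ℝ) : e2 (MvPolynomial.X 1) u v = v := by simp [e2]
theorem e2_zero (u v : ℝ) : e2 0 u v = 0 := by simp [e2]
theorem e2_one (u v : ℝ) : e2 1 u v = 1 := by simp [e2]

theorem key_alg {u v ρ κ S S0 S1 S00 S11 Lu Lu1 Lu2 Lu3 Lv Lv1 Lv2 Lv3 : ℝ} (huv' : u - v ≠ 0)
    (J : (u - v) * S = v * Lv1 * Lu - u * Lu1 * Lv)
    (J0 : (u - v) * S0 + S = v * Lv1 * Lu1 - Lv * (u * Lu2 + Lu1))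
    (J1 : (u - v) * S1 - S = Lu * (v * Lv2 + Lv1) - u * Lu1 * Lv1)
    (J00 : (u - v) * S00 + 2 * S0 = v * Lv1 * Lu2 - Lv * (u * Lu3 + 2 * Lu2))
    (J11 : (u - v) * S11 - 2 * S1 = Lu * (v * Lv3 + 2 * Lv2) - u * Lu1 * Lv2)
    (du : u * Lu2 + (1 - κ * u) * Lu1 + Lu = 0)
    (du' : Lu2 + u * Lu3 + (-κ * Lu1 + (1 - κ * u) * Lu2) + Lu1 = 0)
    (dv : v * Lv2 + (1 - κ * v) * Lv1 + Lv = 0)
    (dv' : Lv2 + v * Lv3 + (-κ * Lv1 + (1 - κ * v) * Lv2) + Lv1 = 0) :
    u * (u - 2 * ρ) * S00 - v * (v - 2 * ρ) * S11 + (2 * u - 2 * ρ) * S0 - (2 * v - 2 * ρ) * S1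
     - κ * (u * (u - 2 * ρ) * S0 - v * (v - 2 * ρ) * S1) + (u - v) * (1 - κ) * S = 0 := by
  have h2 : (u - v) ^ 2 ≠ 0 := pow_ne_zero 2 huv'
  apply mul_left_cancel₀ h2
  rw [mul_zero]
  linear_combination ((u - v) * (u * (u - 2 * ρ))) * J00 - ((u - v) * (v * (v - 2 * ρ))) * J11
    + ((u - v) * (2 * u - 2 * ρ) - κ * (u - v) * (u * (u - 2 * ρ)) - 2 * u * (u - 2 * ρ)) * J0
    + (-(u - v) * (2 * v - 2 * ρ) + κ * (u - v) * (v * (v - 2 * ρ)) - 2 * v * (v - 2 * ρ)) * J1
    + ((u - v) ^ 2 * (1 - κ) + κ * (u ^ 2 + v ^ 2 - 2 * ρ * (u + v))) * J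
    - (u - v) * (u * (u - 2 * ρ)) * Lv * du'
    - (u - v) * (v * (v - 2 * ρ)) * Lu * dv'
    + ((u - v) * (u - 2 * ρ) * (v * Lv1 - κ * u * Lv)
        - ((u - v) * (2 * u - 2 * ρ) - κ * (u - v) * (u * (u - 2 * ρ)) - 2 * u * (u - 2 * ρ)) * Lv) * du
    + (-(u - v) * (v - 2 * ρ) * (κ * v * Lu - u * Lu1)
        + (-(u - v) * (2 * v - 2 * ρ) + κ * (u - v) * (v * (v - 2 * ρ)) - 2 * v * (v - 2 * ρ)) * Lu) * dv

/-- the separated equation `(𝓛_u - 𝓛_v) S = 0` -/
theorem SP_eq {n : ℕ} (hn : 1 ≤ n) (ρ u v : ℝ) (huv : u ≠ v) :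
    u * (u - 2 * ρ) * e2 (pderiv 0 (pderiv 0 (SP n))) u v
      - v * (v - 2 * ρ) * e2 (pderiv 1 (pderiv 1 (SP n))) u v
      + (2 * u - 2 * ρ) * e2 (pderiv 0 (SP n)) u v
      - (2 * v - 2 * ρ) * e2 (pderiv 1 (SP n)) u v
      - (1 / (n : ℝ)) * (u * (u - 2 * ρ) * e2 (pderiv 0 (SP n)) u v
        - v * (v - 2 * ρ) * e2 (pderiv 1 (SP n)) u v)
      + (u - v) * (1 - 1 / (n : ℝ)) * e2 (SP n) u v = 0 := by
  have I := SP_mul n
  have I0 := congrArg (pderiv 0) I
  have I1 := congrArg (pderiv 1) I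
  have I00 := congrArg (pderiv 0) I0
  have I11 := congrArg (pderiv 1) I1
  have n01 : (0 : Fin 2) ≠ 1 := by decide
  have n10 : (1 : Fin 2) ≠ 0 := by decide
  have d := Lp_ode hn
  have d' := congrArg Polynomial.derivative d
  simp only [Polynomial.derivative_add, Polynomial.derivative_mul, Polynomial.derivative_sub,
    Polynomial.derivative_X, Polynomial.derivative_C, Polynomial.derivative_one,
    Polynomial.derivative_zero, one_mul, zero_mul, zero_add, zero_sub] at d'
  have du := congrArg (Polynomial.eval u) d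
  have dv := congrArg (Polynomial.eval v) d
  have du' := congrArg (Polynomial.eval u) d'
  have dv' := congrArg (Polynomial.eval v) d'
  simp only [Polynomial.eval_add, Polynomial.eval_mul, Polynomial.eval_sub, Polynomial.eval_X,
    Polynomial.eval_C, Polynomial.eval_one, Polynomial.eval_zero, Polynomial.eval_neg]
    at du dv du' dv'
  simp only [Derivation.leibniz, map_sub, map_add, smul_eq_mul, MvPolynomial.pderiv_X_self,
    MvPolynomial.pderiv_X_of_ne n01, MvPolynomial.pderiv_X_of_ne n10, pderiv_aX_same,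
    pderiv_aX_ne n01, pderiv_aX_ne n10, map_zero, Derivation.map_one_eq_zero] at I0 I1 I00 I11
  have J := congrArg (fun p => e2 p u v) I
  have J0 := congrArg (fun p => e2 p u v) I0
  have J1 := congrArg (fun p => e2 p u v) I1
  have J00 := congrArg (fun p => e2 p u v) I00
  have J11 := congrArg (fun p => e2 p u v) I11
  simp only [e2_add, e2_sub, e2_mul, e2_X0, e2_X1, e2_aX0, e2_aX1, e2_zero, e2_one] at J J0 J1 J00 J11
  generalize e2 (pderiv 0 (pderiv 0 (SP n))) u v = S00 at *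
  generalize e2 (pderiv 1 (pderiv 1 (SP n))) u v = S11 at *
  generalize e2 (pderiv 0 (SP n)) u v = S0 at *
  generalize e2 (pderiv 1 (SP n)) u v = S1 at *
  generalize e2 (SP n) u v = S at *
  generalize (Lp n).derivative.derivative.derivative.eval u = Lu3 at *
  generalize (Lp n).derivative.derivative.eval u = Lu2 at *
  generalize (Lp n).derivative.eval u = Lu1 at *
  generalize (Lp n).eval u = Lu at *
  generalize (Lp n).derivative.derivative.derivative.eval v = Lv3 at *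
  generalize (Lp n).derivative.derivative.eval v = Lv2 at *
  generalize (Lp n).derivative.eval v = Lv1 at *
  generalize (Lp n).eval v = Lv at *
  generalize 1 / (n : ℝ) = κ at *
  have huv' : (u - v) ≠ 0 := sub_ne_zero.2 huv
  clear d d' I I0 I1 I00 I11
  exact key_alg (u := u) (v := v) (ρ := ρ) (κ := κ) (S := S) (S0 := S0) (S1 := S1) (S00 := S00)
    (S11 := S11) (Lu := Lu) (Lu1 := Lu1) (Lu2 := Lu2) (Lu3 := Lu3) (Lv := Lv) (Lv1 := Lv1)
    (Lv2 := Lv2) (Lv3 := Lv3) huv' (by linear_combination J) (by linear_combination J0)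
    (by linear_combination J1) (by linear_combination J00) (by linear_combination J11)
    (by linear_combination du) (by linear_combination du') (by linear_combination dv)
    (by linear_combination dv')

end

end Vale.Agent.P370.H546
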