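import Vale.Agent.P370.H546.Pair

/-! Second derivatives along coordinate lines of `(p + r q) e^{-κ r}` and of symmetric functions of
`|x|, |x-y|`. -/

namespace Vale.Agent.P370.H546

open MeasureTheory Set Real Filter Topology
open Vale.Agent.P363.H849

noncomputable section

/-- the coordinate line through `x` -/
def cur (x : R3) (k : Fin 3) (t : ℝ) : R3 := x + t • e3 k

theorem cur_zero (x : R3) (k : Fin 3) : cur x k 0 = x := by simp [cur]

theorem cur_hasDerivAt (x : R3) (k : Fin 3) (t : ℝ) : HasDerivAt (cur x k) (e3 k) t := by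
  have h : HasDerivAt (fun t : ℝ => t • e3 k) ((1 : ℝ) • e3 k) t :=
    (hasDerivAt_id t).smul_const (e3 k)
  rw [one_smul] at h
  exact h.const_add x

theorem cur_coord (x : R3) (k : Fin 3) (t : ℝ) : cur x k t k = x k + t := by
  simp [cur, e3]

theorem cur_sub (x y : R3) (k : Fin 3) (t : ℝ) : cur x k t - y = cur (x - y) k t := by
  simp only [cur]; abel

theorem cur_ne {x : R3} (hx : x ≠ 0) (k : Fin 3) : ∀ᶠ t in 𝓝 (0 : ℝ), cur x k t ≠ 0 := by
  have hc : ContinuousAt (cur x k) 0 := (cur_hasDerivAt x k 0).continuousAt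
  apply hc.eventually_ne
  rwa [cur_zero]

theorem norm_line {x : R3} {k : Fin 3} {t : ℝ} (h : cur x k t ≠ 0) :
    HasDerivAt (fun t => ‖cur x k t‖) ((x k + t) / ‖cur x k t‖) t := by
  have hn : HasFDerivAt (fun y : R3 => ‖y‖) (fderiv ℝ (fun y : R3 => ‖y‖) (cur x k t)) (cur x k t) :=
    ((norm_contDiffAt h).differentiableAt (by simp)).hasFDerivAt
  have := hn.comp_hasDerivAt t (cur_hasDerivAt x k t)
  rw [fderiv_norm_e3 h, cur_coord] at this
  exact this

theorem G_line (p : Poly) {h h1 : ℝ → ℝ} {x : R3} {k : Fin 3} {t : ℝ} (hx : cur x k t ≠ 0)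
    (hd : HasDerivAt h (‖cur x k t‖ * h1 ‖cur x k t‖) ‖cur x k t‖) :
    HasDerivAt (fun t => G p h (cur x k t))
      (G (MvPolynomial.pderiv k p) h (cur x k t) + G (MvPolynomial.X k * p) h1 (cur x k t)) t := by
  have hn : DifferentiableAt ℝ (fun y : R3 => ‖y‖) (cur x k t) :=
    (norm_contDiffAt hx).differentiableAt (by simp)
  have h2 : DifferentiableAt ℝ (fun y : R3 => h ‖y‖) (cur x k t) :=
    hd.differentiableAt.comp (cur x k t) hn
  have h3 : DifferentiableAt ℝ (ev p) (cur x k t) :=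
    (ev_contDiff p).differentiable (by simp) _
  have h4 : DifferentiableAt ℝ (G p h) (cur x k t) := h3.mul h2
  have := h4.hasFDerivAt.comp_hasDerivAt t (cur_hasDerivAt x k t)
  rw [G_fderiv p hx hd] at this
  exact this

/-- first derivative of `wv` in direction `k` -/
def w1 (κ : ℝ) (u : Poly × Poly) (k : Fin 3) (x : R3) : ℝ :=
  (G (MvPolynomial.pderiv k u.1) (hA κ) x + G (MvPolynomial.X k * u.1) (hA1 κ) x)
    + (G (MvPolynomial.pderiv k u.2) (hB κ) x + G (MvPolynomial.X k * u.2) (hB1 κ) x)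

/-- second derivative of `wv` in direction `k` -/
def w2 (κ : ℝ) (u : Poly × Poly) (k : Fin 3) (x : R3) : ℝ :=
  ((G (MvPolynomial.pderiv k (MvPolynomial.pderiv k u.1)) (hA κ) x
      + G (MvPolynomial.X k * MvPolynomial.pderiv k u.1) (hA1 κ) x)
    + (G (MvPolynomial.pderiv k (MvPolynomial.X k * u.1)) (hA1 κ) x
      + G (MvPolynomial.X k * (MvPolynomial.X k * u.1)) (hA2 κ) x))
  + ((G (MvPolynomial.pderiv k (MvPolynomial.pderiv k u.2)) (hB κ) x
      + G (MvPolynomial.X k * MvPolynomial.pderiv k u.2) (hB1 κ) x)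
    + (G (MvPolynomial.pderiv k (MvPolynomial.X k * u.2)) (hB1 κ) x
      + G (MvPolynomial.X k * (MvPolynomial.X k * u.2)) (hB2 κ) x))

theorem wv_line {κ : ℝ} (hκ : 0 < κ) (u : Poly × Poly) {x : R3} {k : Fin 3} {t : ℝ}
    (hx : cur x k t ≠ 0) :
    HasDerivAt (fun t => wv κ u (cur x k t)) (w1 κ u k (cur x k t)) t := by
  have h0 := norm_pos_iff.2 hx
  exact (G_line u.1 hx ((isProfA hκ).d _ h0)).add (G_line u.2 hx ((isProfB hκ).d _ h0))

theorem w1_line {κ : ℝ} (hκ : 0 < κ) (u : Poly × Poly) {x : R3} {k : Fin 3} {t : ℝ}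
    (hx : cur x k t ≠ 0) :
    HasDerivAt (fun t => w1 κ u k (cur x k t)) (w2 κ u k (cur x k t)) t := by
  have h0 := norm_pos_iff.2 hx
  exact ((G_line _ hx ((isProfA hκ).d _ h0)).add (G_line _ hx ((isProfA hκ).d1 _ h0))).add
    ((G_line _ hx ((isProfB hκ).d _ h0)).add (G_line _ hx ((isProfB hκ).d1 _ h0)))

theorem w2_sum (κ : ℝ) (u : Poly × Poly) (x : R3) :
    ∑ k, w2 κ u k x = lapG u.1 (hA κ) (hA1 κ) (hA2 κ) x + lapG u.2 (hB κ) (hB1 κ) (hB2 κ) x := by
  simp only [w2, lapG, lap, eul, G, Fin.sum_univ_three, ev_add, ev_mul, ev_X, norm_sq_R3,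
    Derivation.leibniz, smul_eq_mul, MvPolynomial.pderiv_X_self, ev_one]
  ring

/-- `½ r (κ² - Δ)` acts as `Kop`. -/
theorem half_r_lap (κ : ℝ) (u : Poly × Poly) {x : R3} (hx : x ≠ 0) :
    1 / 2 * ‖x‖ * (κ ^ 2 * wv κ u x - ∑ k, w2 κ u k x) = wv κ (Kop κ u) x := by
  rw [w2_sum]
  have hx0 : ‖x‖ ≠ 0 := norm_ne_zero_iff.2 hx
  have hr : ev rsq x = ‖x‖ ^ 2 := ev_rsq x
  have hneg : ∀ p : Poly, ev (-p) x = - ev p x := by intro p; simp [ev]
  simp only [lapG, wv, G, Kop, hA, hA1, hA2, hB, hB1, hB2, ev_add, ev_sub, ev_smul, ev_mul, hr,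
    hneg]
  field_simp
  ring

/-! ### functions of `|x|` and `|x - y|` -/

/-- value of a two-variable polynomial -/
def e2 (P : MvPolynomial (Fin 2) ℝ) (a b : ℝ) : ℝ := MvPolynomial.eval ![a, b] P

theorem e2_hasDerivAt (P : MvPolynomial (Fin 2) ℝ) {a b : ℝ → ℝ} {a' b' t : ℝ}
    (ha : HasDerivAt a a' t) (hb : HasDerivAt b b' t) :
    HasDerivAt (fun t => e2 P (a t) (b t))
      (e2 (MvPolynomial.pderiv 0 P) (a t) (b t) * a'
        + e2 (MvPolynomial.pderiv 1 P) (a t) (b t) * b') t := by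
  induction P using MvPolynomial.induction_on with
  | C c =>
    have h : (fun t => e2 (MvPolynomial.C c) (a t) (b t)) = fun _ => c := by
      funext t; simp [e2]
    rw [h]
    simpa [e2] using hasDerivAt_const t c
  | add p q hp hq =>
    have h : (fun t => e2 (p + q) (a t) (b t)) = fun t => e2 p (a t) (b t) + e2 q (a t) (b t) := by
      funext t; simp [e2]
    rw [h]
    refine (hp.add hq).congr_deriv ?_
    simp only [e2, map_add]
    ring
  | mul_X p i hp =>
    fin_cases i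
    · have h : (fun t => e2 (p * MvPolynomial.X 0) (a t) (b t))
          = fun t => e2 p (a t) (b t) * a t := by
        funext t; simp [e2]
      show HasDerivAt (fun t => e2 (p * MvPolynomial.X 0) (a t) (b t)) _ t
      rw [h]
      refine (hp.mul ha).congr_deriv ?_
      show _ = e2 (MvPolynomial.pderiv 0 (p * MvPolynomial.X 0)) (a t) (b t) * a'
        + e2 (MvPolynomial.pderiv 1 (p * MvPolynomial.X 0)) (a t) (b t) * b'
      simp only [e2, Derivation.leibniz, smul_eq_mul, MvPolynomial.pderiv_X_self, map_add, map_mul,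
        MvPolynomial.eval_X, MvPolynomial.pderiv_X_of_ne (show (0 : Fin 2) ≠ 1 by decide),
        map_zero, map_one, Matrix.cons_val_zero]
      ring
    · have h : (fun t => e2 (p * MvPolynomial.X 1) (a t) (b t))
          = fun t => e2 p (a t) (b t) * b t := by
        funext t; simp [e2]
      show HasDerivAt (fun t => e2 (p * MvPolynomial.X 1) (a t) (b t)) _ t
      rw [h]
      refine (hp.mul hb).congr_deriv ?_
      show _ = e2 (MvPolynomial.pderiv 0 (p * MvPolynomial.X 1)) (a t) (b t) * a'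
        + e2 (MvPolynomial.pderiv 1 (p * MvPolynomial.X 1)) (a t) (b t) * b'
      simp only [e2, Derivation.leibniz, smul_eq_mul, MvPolynomial.pderiv_X_self, map_add, map_mul,
        MvPolynomial.eval_X, MvPolynomial.pderiv_X_of_ne (show (1 : Fin 2) ≠ 0 by decide),
        map_zero, map_one, Matrix.cons_val_one, Matrix.cons_val_fin_one]
      ring

end

end Vale.Agent.P370.H546
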