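import Vale.Agent.P363.H849.Gap0

/-! Functions `p(x) + |x| q(x)` with degree bounds: closure properties and uniqueness of the pair. -/

namespace Vale.Agent.P370.H546

open MvPolynomial
open Vale.Agent.P363.H849


noncomputable section

/-- value of a pair of polynomials, without the exponential -/
def pv (w : Poly × Poly) (x : R3) : ℝ := ev w.1 x + ‖x‖ * ev w.2 x

theorem wv_eq_pv (κ : ℝ) (w : Poly × Poly) (x : R3) :
    wv κ w x = pv w x * Real.exp (-κ * ‖x‖) := by
  simp only [wv, pv, G, hA, hB]; ring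

theorem mem_Pn_iff {a : ℕ} {p : Poly} : p ∈ Pn (a + 1) ↔ p.totalDegree ≤ a := by
  constructor
  · intro h
    unfold Pn at h
    rw [mem_restrictSupport_iff] at h
    apply Finset.sup_le
    intro m hm
    have h2 : m.degree = m.sum fun _ e => e := rfl
    have h3 : m.degree < a + 1 := h hm
    omega
  · intro h
    exact Pn_mono (Nat.succ_le_succ h) (mem_Pn_totalDegree p)

theorem mul_mem_Pn {a b : ℕ} {p q : Poly} (hp : p ∈ Pn (a + 1)) (hq : q ∈ Pn (b + 1)) :
    p * q ∈ Pn (a + b + 1) := by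
  rw [mem_Pn_iff] at *
  exact (totalDegree_mul _ _).trans (Nat.add_le_add hp hq)

theorem mul_mem_Pn0 {a b : ℕ} {p q : Poly} (hp : p ∈ Pn a) (hq : q ∈ Pn (b + 1)) :
    p * q ∈ Pn (a + b) := by
  match a, hp with
  | 0, hp =>
    rw [Pn_zero, Submodule.mem_bot] at hp
    rw [hp, zero_mul]; exact (Pn _).zero_mem
  | a + 1, hp => 
    have := mul_mem_Pn hp hq
    rwa [show a + 1 + b = a + b + 1 by omega]

theorem rsq_mem : rsq ∈ Pn 3 := by
  unfold rsq
  refine (Pn 3).sum_mem fun k _ => ?_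
  have hX : (X k : Poly) ∈ Pn 2 := by
    rw [mem_Pn_iff, totalDegree_X]
  exact mul_mem_Pn (a := 1) (b := 1) hX hX

theorem ev_rsq (x : R3) : ev rsq x = ‖x‖ ^ 2 := by
  rw [norm_sq_R3, rsq, ev_sum]
  simp only [ev_mul, ev_X]
  exact Finset.sum_congr rfl fun k _ => by ring

/-- multiplication of pairs -/
def pmul (w w' : Poly × Poly) : Poly × Poly :=
  (w.1 * w'.1 + rsq * (w.2 * w'.2), w.1 * w'.2 + w.2 * w'.1)

theorem pv_pmul (w w' : Poly × Poly) (x : R3) : pv (pmul w w') x = pv w x * pv w' x := by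
  simp only [pv, pmul, ev_add, ev_mul, ev_rsq]
  ring

theorem pmul_mem {a b : ℕ} {w w' : Poly × Poly} (hw : w ∈ Un (a + 1)) (hw' : w' ∈ Un (b + 1)) :
    pmul w w' ∈ Un (a + b + 1) := by
  obtain ⟨h1, h2⟩ := hw
  obtain ⟨h1', h2'⟩ := hw'
  simp only [Nat.add_sub_cancel] at h2 h2'
  have h2 : w.2 ∈ Pn a := h2
  have h2' : w'.2 ∈ Pn b := h2'
  refine ⟨(Pn _).add_mem (mul_mem_Pn h1 h1') ?_, (Pn _).add_mem ?_ ?_⟩
  · match a, b, h2, h2' with
    | 0, b, h2, h2' =>
      rw [Pn_zero, Submodule.mem_bot] at h2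
      rw [h2]; simp
    | a + 1, 0, h2, h2' =>
      rw [Pn_zero, Submodule.mem_bot] at h2'
      rw [h2']; simp
    | a + 1, b + 1, h2, h2' =>
      have h3 := mul_mem_Pn (a := 2) (b := a + b) rsq_mem (mul_mem_Pn h2 h2')
      rwa [show 2 + (a + b) + 1 = a + 1 + (b + 1) + 1 by omega] at h3
  · have := mul_mem_Pn0 h2' h1
    rw [mul_comm, show b + a = a + b + 1 - 1 by omega] at this
    exact this
  · have := mul_mem_Pn0 h2 h1'
    rw [show a + b = a + b + 1 - 1 by omega] at this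
    exact this

/-- `φ(x) = p(x) + |x| q(x)` with `deg p ≤ d`, `deg q ≤ d - 1` -/
def IsPair (d : ℕ) (φ : R3 → ℝ) : Prop := ∃ w ∈ Un (d + 1), ∀ x, φ x = pv w x

theorem IsPair.mono {d e : ℕ} (h : d ≤ e) {φ : R3 → ℝ} (hφ : IsPair d φ) : IsPair e φ := by
  obtain ⟨w, hw, h'⟩ := hφ
  exact ⟨w, Un_mono (Nat.succ_le_succ h) hw, h'⟩

theorem IsPair.mul {d e : ℕ} {φ ψ : R3 → ℝ} (hφ : IsPair d φ) (hψ : IsPair e ψ) :
    IsPair (d + e) (fun x => φ x * ψ x) := by
  obtain ⟨w, hw, h⟩ := hφ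
  obtain ⟨w', hw', h'⟩ := hψ
  exact ⟨pmul w w', pmul_mem hw hw', fun x => by
    show φ x * ψ x = _
    rw [pv_pmul, h, h']⟩

theorem IsPair.add {d : ℕ} {φ ψ : R3 → ℝ} (hφ : IsPair d φ) (hψ : IsPair d ψ) :
    IsPair d (fun x => φ x + ψ x) := by
  obtain ⟨w, hw, h⟩ := hφ
  obtain ⟨w', hw', h'⟩ := hψ
  refine ⟨w + w', (Un _).add_mem hw hw', fun x => ?_⟩
  show φ x + ψ x = _
  rw [h, h']
  simp only [pv, Prod.fst_add, Prod.snd_add, ev_add]
  ring

theorem IsPair.smul {d : ℕ} {φ : R3 → ℝ} (hφ : IsPair d φ) (c : ℝ) :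
    IsPair d (fun x => c * φ x) := by
  obtain ⟨w, hw, h⟩ := hφ
  refine ⟨c • w, (Un _).smul_mem c hw, fun x => ?_⟩
  show c * φ x = _
  rw [h]
  simp only [pv, Prod.smul_fst, Prod.smul_snd, ev_smul]
  ring

theorem IsPair.sub {d : ℕ} {φ ψ : R3 → ℝ} (hφ : IsPair d φ) (hψ : IsPair d ψ) :
    IsPair d (fun x => φ x - ψ x) := by
  have := hφ.add (hψ.smul (-1))
  refine ⟨this.choose, this.choose_spec.1, fun x => ?_⟩
  rw [← this.choose_spec.2]
  ring

theorem isPair_const (c : ℝ) : IsPair 0 (fun _ => c) := by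
  refine ⟨(C c, 0), ⟨?_, (Pn _).zero_mem⟩, fun x => ?_⟩
  · show (C c : Poly) ∈ Pn (0 + 1)
    rw [mem_Pn_iff]; simp
  · simp [pv, ev_C, ev_zero]

theorem IsPair.zero {d : ℕ} : IsPair d (fun _ => 0) := (isPair_const 0).mono (Nat.zero_le _)

theorem IsPair.pow {d : ℕ} {φ : R3 → ℝ} (hφ : IsPair d φ) (n : ℕ) :
    IsPair (n * d) (fun x => φ x ^ n) := by
  induction n with
  | zero => 
    rw [Nat.zero_mul]
    simp only [pow_zero]; exact isPair_const 1
  | succ n ih =>
    have := ih.mul hφ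
    rw [show (n + 1) * d = n * d + d by ring]
    simp only [pow_succ]
    exact this

theorem IsPair.sum {d : ℕ} {ι : Type*} (s : Finset ι) {φ : ι → R3 → ℝ}
    (h : ∀ i ∈ s, IsPair d (φ i)) : IsPair d (fun x => ∑ i ∈ s, φ i x) := by
  classical
  induction s using Finset.induction_on with
  | empty => simpa using IsPair.zero
  | insert a s ha ih =>
    simp only [Finset.sum_insert ha]
    exact (h a (Finset.mem_insert_self _ _)).add
      (ih fun i hi => h i (Finset.mem_insert_of_mem hi))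

theorem isPair_norm : IsPair 1 (fun x => ‖x‖) := by
  refine ⟨(0, 1), ⟨(Pn _).zero_mem, ?_⟩, fun x => ?_⟩
  · show (1 : Poly) ∈ Pn (0 + 1)
    rw [mem_Pn_iff]; simp
  · simp [pv, ev_zero, ev_one]

theorem isPair_coord (k : Fin 3) : IsPair 1 (fun x : R3 => x k) := by
  refine ⟨(X k, 0), ⟨?_, (Pn _).zero_mem⟩, fun x => ?_⟩
  · show (X k : Poly) ∈ Pn (1 + 1)
    rw [mem_Pn_iff, totalDegree_X]
  · simp [pv, ev_zero, ev_X]

theorem isPair_inner (y : R3) : IsPair 1 (fun x => inner ℝ x y) := by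
  have h : (fun x : R3 => inner ℝ x y) = fun x => ∑ k : Fin 3, y k * x k := by
    funext x
    rw [PiLp.inner_apply]
    apply Finset.sum_congr rfl
    intro k _
    simp
  rw [h]
  exact IsPair.sum _ fun k _ => (isPair_coord k).smul (y k)

/-! ### uniqueness of the pair -/

theorem ev_smul_point (p : Poly) (x : R3) :
    ∃ P : Polynomial ℝ, ∀ t : ℝ, ev p (t • x) = P.eval t := by
  induction p using MvPolynomial.induction_on with
  | C a => exact ⟨Polynomial.C a, fun t => by simp [ev_C]⟩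
  | add p q hp hq =>
    obtain ⟨P, hP⟩ := hp
    obtain ⟨R, hR⟩ := hq
    exact ⟨P + R, fun t => by rw [ev_add, hP, hR, Polynomial.eval_add]⟩
  | mul_X p i hp =>
    obtain ⟨P, hP⟩ := hp
    exact ⟨P * (Polynomial.C (x i) * Polynomial.X), fun t => by
      have h1 : (t • x) i = t * x i := rfl
      rw [ev_mul, hP, ev_X, h1]
      simp only [Polynomial.eval_mul, Polynomial.eval_C, Polynomial.eval_X]
      ring⟩

theorem pv_injective {w : Poly × Poly} (h : ∀ x, pv w x = 0) : w = 0 := by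
  have key : ∀ x : R3, ev w.1 x = 0 ∧ ‖x‖ * ev w.2 x = 0 := by
    intro x
    obtain ⟨P, hP⟩ := ev_smul_point w.1 x
    obtain ⟨R, hR⟩ := ev_smul_point w.2 x
    have h1 : ∀ t : ℝ, 0 < t → (P + Polynomial.X * (Polynomial.C ‖x‖ * R)).eval t = 0 := by
      intro t ht
      have := h (t • x)
      simp only [pv, hP, hR, norm_smul, Real.norm_eq_abs, abs_of_pos ht] at this
      simp only [Polynomial.eval_add, Polynomial.eval_mul, Polynomial.eval_X, Polynomial.eval_C]
      linarith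
    have h2 : ∀ t : ℝ, t < 0 → (P - Polynomial.X * (Polynomial.C ‖x‖ * R)).eval t = 0 := by
      intro t ht
      have := h (t • x)
      simp only [pv, hP, hR, norm_smul, Real.norm_eq_abs, abs_of_neg ht] at this
      simp only [Polynomial.eval_sub, Polynomial.eval_mul, Polynomial.eval_X, Polynomial.eval_C]
      linarith
    have e1 : P + Polynomial.X * (Polynomial.C ‖x‖ * R) = 0 :=
      Polynomial.eq_zero_of_infinite_isRoot _ ((Set.Ioi_infinite (0 : ℝ)).mono fun t ht => h1 t ht)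
    have e2 : P - Polynomial.X * (Polynomial.C ‖x‖ * R) = 0 :=
      Polynomial.eq_zero_of_infinite_isRoot _ ((Set.Iio_infinite (0 : ℝ)).mono fun t ht => h2 t ht)
    have e3 : (2 : Polynomial ℝ) * P = 0 := by linear_combination e1 + e2
    have e4 : (2 : Polynomial ℝ) * (Polynomial.X * (Polynomial.C ‖x‖ * R)) = 0 := by
      linear_combination e1 - e2
    have hP0 : P = 0 := by
      rcases mul_eq_zero.1 e3 with h | h
      · exact absurd h two_ne_zero
      · exact h
    have hR0 : Polynomial.C ‖x‖ * R = 0 := by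
      rcases mul_eq_zero.1 e4 with h | h
      · exact absurd h two_ne_zero
      · rcases mul_eq_zero.1 h with h | h
        · exact absurd h Polynomial.X_ne_zero
        · exact h
    have a1 := hP 1
    have a2 := hR 1
    rw [one_smul] at a1 a2
    refine ⟨by rw [a1, hP0]; simp, ?_⟩
    have := congrArg (Polynomial.eval 1) hR0
    simpa [a2] using this
  have hw1 : w.1 = 0 := by
    apply MvPolynomial.funext
    intro x
    have := (key (WithLp.toLp 2 x)).1
    simpa [ev] using this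
  have hw2 : rsq * w.2 = 0 := by
    apply MvPolynomial.funext
    intro x
    have := (key (WithLp.toLp 2 x)).2
    have h3 : ev (rsq * w.2) (WithLp.toLp 2 x) = 0 := by
      rw [ev_mul, ev_rsq]
      rw [pow_two, mul_assoc, this, mul_zero]
    simpa [ev] using h3
  have hr : rsq ≠ 0 := by
    intro h0
    have := ev_rsq (e3 0)
    rw [h0, ev_zero] at this
    have h1 : ‖e3 0‖ = 1 := by simp [e3]
    rw [h1] at this
    norm_num at this
  have hw2' : w.2 = 0 := (mul_eq_zero.1 hw2).resolve_left hr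
  exact Prod.ext hw1 hw2'

end

end Vale.Agent.P370.H546
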