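import Vale.Agent.P370.H546.Line

/-! The Laplacian of `e^{-κ|x|} P(u,v)`, `u = |x|+ρ+|x-y|`, `v = |x|+ρ-|x-y|`. -/

namespace Vale.Agent.P370.H546

open MeasureTheory Set Real Filter Topology
open Vale.Agent.P363.H849
open MvPolynomial (pderiv)

noncomputable section

variable (κ ρ : ℝ) (P : MvPolynomial (Fin 2) ℝ)

/-- `e^{-κ r} P(r+ρ+s, r+ρ-s)` -/
def F0 (r s : ℝ) : ℝ := e2 P (r + ρ + s) (r + ρ - s) * exp (-κ * r)

/-- its derivative when `r' = a / r`, `s' = b / s` -/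
def F1 (r s a b : ℝ) : ℝ :=
  (e2 (pderiv 0 P) (r + ρ + s) (r + ρ - s) * (a / r + b / s)
    + e2 (pderiv 1 P) (r + ρ + s) (r + ρ - s) * (a / r - b / s)
    - κ * (a / r) * e2 P (r + ρ + s) (r + ρ - s)) * exp (-κ * r)

/-- its second derivative when moreover `a' = b' = 1` -/
def F2 (r s a b : ℝ) : ℝ :=
  (e2 (pderiv 0 (pderiv 0 P)) (r + ρ + s) (r + ρ - s) * (a / r + b / s) ^ 2
    + (e2 (pderiv 1 (pderiv 0 P)) (r + ρ + s) (r + ρ - s)
      + e2 (pderiv 0 (pderiv 1 P)) (r + ρ + s) (r + ρ - s)) * ((a / r) ^ 2 - (b / s) ^ 2)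
    + e2 (pderiv 1 (pderiv 1 P)) (r + ρ + s) (r + ρ - s) * (a / r - b / s) ^ 2
    + e2 (pderiv 0 P) (r + ρ + s) (r + ρ - s)
      * ((1 / r - a ^ 2 / r ^ 3) + (1 / s - b ^ 2 / s ^ 3))
    + e2 (pderiv 1 P) (r + ρ + s) (r + ρ - s)
      * ((1 / r - a ^ 2 / r ^ 3) - (1 / s - b ^ 2 / s ^ 3))
    - 2 * κ * (a / r) * (e2 (pderiv 0 P) (r + ρ + s) (r + ρ - s) * (a / r + b / s)
      + e2 (pderiv 1 P) (r + ρ + s) (r + ρ - s) * (a / r - b / s))
    + (κ ^ 2 * (a / r) ^ 2 - κ * (1 / r - a ^ 2 / r ^ 3)) * e2 P (r + ρ + s) (r + ρ - s))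
    * exp (-κ * r)

theorem F0_hasDerivAt {r s a b : ℝ → ℝ} {t : ℝ} (hr : HasDerivAt r (a t / r t) t)
    (hs : HasDerivAt s (b t / s t) t) :
    HasDerivAt (fun t => F0 κ ρ P (r t) (s t)) (F1 κ ρ P (r t) (s t) (a t) (b t)) t := by
  have hu : HasDerivAt (fun t => r t + ρ + s t) (a t / r t + b t / s t) t := (hr.add_const ρ).add hs
  have hv : HasDerivAt (fun t => r t + ρ - s t) (a t / r t - b t / s t) t := (hr.add_const ρ).sub hs
  have h1 := e2_hasDerivAt P hu hv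
  have h2 : HasDerivAt (fun t => exp (-κ * r t)) (exp (-κ * r t) * (-κ * (a t / r t))) t :=
    (hr.const_mul (-κ)).exp
  refine (h1.mul h2).congr_deriv ?_
  simp only [F1]
  ring

theorem F1_hasDerivAt {r s a b : ℝ → ℝ} {t : ℝ} (hr0 : r t ≠ 0) (hs0 : s t ≠ 0)
    (hr : HasDerivAt r (a t / r t) t) (hs : HasDerivAt s (b t / s t) t)
    (ha : HasDerivAt a 1 t) (hb : HasDerivAt b 1 t) :
    HasDerivAt (fun t => F1 κ ρ P (r t) (s t) (a t) (b t)) (F2 κ ρ P (r t) (s t) (a t) (b t)) t := by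
  have hu : HasDerivAt (fun t => r t + ρ + s t) (a t / r t + b t / s t) t := (hr.add_const ρ).add hs
  have hv : HasDerivAt (fun t => r t + ρ - s t) (a t / r t - b t / s t) t := (hr.add_const ρ).sub hs
  have h0 := e2_hasDerivAt P hu hv
  have h1 := e2_hasDerivAt (pderiv 0 P) hu hv
  have h2 := e2_hasDerivAt (pderiv 1 P) hu hv
  have h3 : HasDerivAt (fun t => exp (-κ * r t)) (exp (-κ * r t) * (-κ * (a t / r t))) t :=
    (hr.const_mul (-κ)).exp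
  have h4 : HasDerivAt (fun t => a t / r t) (1 / r t - a t ^ 2 / r t ^ 3) t := by
    refine (ha.div hr hr0).congr_deriv ?_
    field_simp
  have h5 : HasDerivAt (fun t => b t / s t) (1 / s t - b t ^ 2 / s t ^ 3) t := by
    refine (hb.div hs hs0).congr_deriv ?_
    field_simp
  refine ((((h1.mul (h4.add h5)).add (h2.mul (h4.sub h5))).sub ((h4.const_mul κ).mul h0)).mul
    h3).congr_deriv ?_
  simp only [F2, Pi.add_apply, Pi.sub_apply, Pi.mul_apply]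
  ring

/-- Laplacian of a function of `r` and `s` from the three line derivatives -/
theorem F2_sum {r s : ℝ} (hr : r ≠ 0) (hs : s ≠ 0) (a b : Fin 3 → ℝ)
    (ha : ∑ k, a k ^ 2 = r ^ 2) (hb : ∑ k, b k ^ 2 = s ^ 2) (hab : ∑ k, (a k - b k) ^ 2 = ρ ^ 2)
    (hE : (r + ρ + s) * (r + ρ + s - 2 * ρ) * e2 (pderiv 0 (pderiv 0 P)) (r + ρ + s) (r + ρ - s)
      - (r + ρ - s) * (r + ρ - s - 2 * ρ) * e2 (pderiv 1 (pderiv 1 P)) (r + ρ + s) (r + ρ - s)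
      + (2 * (r + ρ + s) - 2 * ρ) * e2 (pderiv 0 P) (r + ρ + s) (r + ρ - s)
      - (2 * (r + ρ - s) - 2 * ρ) * e2 (pderiv 1 P) (r + ρ + s) (r + ρ - s)
      - κ * ((r + ρ + s) * (r + ρ + s - 2 * ρ) * e2 (pderiv 0 P) (r + ρ + s) (r + ρ - s)
        - (r + ρ - s) * (r + ρ - s - 2 * ρ) * e2 (pderiv 1 P) (r + ρ + s) (r + ρ - s))
      + 2 * s * (1 - κ) * e2 P (r + ρ + s) (r + ρ - s) = 0) :
    ∑ k, F2 κ ρ P r s (a k) (b k) = (κ ^ 2 - 2 / r) * F0 κ ρ P r s := by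
  have hc : ∑ k, a k * b k = (r ^ 2 + s ^ 2 - ρ ^ 2) / 2 := by
    have : ∑ k, (a k - b k) ^ 2 = ∑ k, a k ^ 2 + ∑ k, b k ^ 2 - 2 * ∑ k, a k * b k := by
      rw [Finset.mul_sum, ← Finset.sum_add_distrib, ← Finset.sum_sub_distrib]
      exact Finset.sum_congr rfl fun k _ => by ring
    rw [ha, hb, hab] at this
    linarith
  simp only [Fin.sum_univ_three] at ha hb hc ⊢
  have hrs : r * s ≠ 0 := mul_ne_zero hr hs
  simp only [F2, F0]
  generalize e2 (pderiv 0 (pderiv 0 P)) (r + ρ + s) (r + ρ - s) = S00 at *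
  generalize e2 (pderiv 1 (pderiv 1 P)) (r + ρ + s) (r + ρ - s) = S11 at *
  generalize e2 (pderiv 1 (pderiv 0 P)) (r + ρ + s) (r + ρ - s) = S10 at *
  generalize e2 (pderiv 0 (pderiv 1 P)) (r + ρ + s) (r + ρ - s) = S01 at *
  generalize e2 (pderiv 0 P) (r + ρ + s) (r + ρ - s) = S0 at *
  generalize e2 (pderiv 1 P) (r + ρ + s) (r + ρ - s) = S1 at *
  generalize e2 P (r + ρ + s) (r + ρ - s) = S at *
  generalize exp (-κ * r) = E
  generalize a 0 = a0 at *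
  generalize a 1 = a1 at *
  generalize a 2 = a2 at *
  generalize b 0 = b0 at *
  generalize b 1 = b1 at *
  generalize b 2 = b2 at *
  have hA : (a0 / r) ^ 2 + (a1 / r) ^ 2 + (a2 / r) ^ 2 = 1 := by
    field_simp; linarith
  have hB : (b0 / s) ^ 2 + (b1 / s) ^ 2 + (b2 / s) ^ 2 = 1 := by
    field_simp; linarith
  have hC : (a0 / r) * (b0 / s) + (a1 / r) * (b1 / s) + (a2 / r) * (b2 / s)
      = (r ^ 2 + s ^ 2 - ρ ^ 2) / (2 * r * s) := by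
    field_simp; linarith
  have hA3 : a0 ^ 2 / r ^ 3 + a1 ^ 2 / r ^ 3 + a2 ^ 2 / r ^ 3 = 1 / r := by
    field_simp; linarith
  have hB3 : b0 ^ 2 / s ^ 3 + b1 ^ 2 / s ^ 3 + b2 ^ 2 / s ^ 3 = 1 / s := by
    field_simp; linarith
  have key : (S00 * (2 + 2 * ((r ^ 2 + s ^ 2 - ρ ^ 2) / (2 * r * s)))
      + S11 * (2 - 2 * ((r ^ 2 + s ^ 2 - ρ ^ 2) / (2 * r * s)))
      + S0 * (2 / r + 2 / s) + S1 * (2 / r - 2 / s)
      - 2 * κ * (S0 * (1 + (r ^ 2 + s ^ 2 - ρ ^ 2) / (2 * r * s))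
        + S1 * (1 - (r ^ 2 + s ^ 2 - ρ ^ 2) / (2 * r * s)))
      + (κ ^ 2 - κ * (2 / r)) * S) = (κ ^ 2 - 2 / r) * S := by
    field_simp
    linear_combination hE
  linear_combination E * key
    + E * (S00 + S01 + S10 + S11 - 2 * κ * (S0 + S1) + κ ^ 2 * S) * hA
    + E * (S00 + S11 - S01 - S10) * hB
    + E * (2 * S00 - 2 * S11 - 2 * κ * S0 + 2 * κ * S1) * hC
    + E * (-S0 - S1 + κ * S) * hA3 + E * (-S0 + S1) * hB3

end

end Vale.Agent.P370.H546
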